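import Vale.Agent.P237.Gen.Contact.Layer
import Vale.Agent.P237.Gen.Defs
import Vale.Agent.P237.Every.Defs
import Vale.Agent.P254.Body

/-!
The data of one contact direction in John position in dimension `n + 1`: coordinates, the profile,
and the one-variable inequality.
-/

namespace Vale.Agent.P237.Gen.Contact

open MeasureTheory Set Metric Filter
open scoped RealInnerProductSpace
open Vale.P254 (sl slVol)

noncomputable section

variable {n : ℕ}

/-- The point with coordinates `x` in an orthonormal basis. -/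
def coords (b : OrthonormalBasis (Fin (n + 1)) ℝ (E n)) (x : Fin (n + 1) → ℝ) : E n :=
  b.repr.symm (WithLp.toLp 2 x)

/-- The volume of the section of `K` at height `t` in the direction of the first basis vector. -/
def slArea (K : Set (E n)) (b : OrthonormalBasis (Fin (n + 1)) ℝ (E n)) (t : ℝ) : ℝ :=
  slVol (coords b ⁻¹' K) t

/-- A symmetric convex body whose maximal inscribed ellipsoid is the unit ball. -/
structure InJohn (K : Set (E n)) : Prop extends Ctr K where
  symm : ∀ x ∈ K, -x ∈ K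
  contacts : ∃ (m : ℕ) (c : Fin m → ℝ) (u : Fin m → E n), (∀ i, 0 ≤ c i) ∧
    ∑ i, c i = (n : ℝ) + 1 ∧ (∀ i, ‖u i‖ = 1) ∧ (∀ i, ∀ x ∈ K, |⟪u i, x⟫| ≤ 1) ∧
    ∀ v, ∑ i, (c i * ⟪u i, v⟫) • u i = v

/-- Half the integral of the `m`-th power of a profile. -/
def pw (m : ℕ) (f : ℝ → ℝ) : ℝ := ∫ t in (0:ℝ)..1, f t ^ m

/-- The profile of the ball. -/
def semi (t : ℝ) : ℝ := Real.sqrt (1 - t ^ 2)

/-- The admissible profiles. -/
structure Adm (f : ℝ → ℝ) : Prop where
  conc : ConcaveOn ℝ (Icc (0 : ℝ) 1) f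
  anti : AntitoneOn f (Icc (0 : ℝ) 1)
  ge : ∀ t ∈ Icc (0 : ℝ) 1, semi t ≤ f t
  cont : ContinuousOn f (Ico (0 : ℝ) 1)

/-- The test functional bounding the squared derivative of the gauge from below. -/
def testQ (n : ℕ) (ψ f : ℝ → ℝ) : ℝ :=
  ∫ t in (0:ℝ)..1, (2 * deriv ψ t - ((n : ℝ) + 1) * ψ t ^ 2 - 2 * t * ψ t * deriv ψ t) * f t ^ n

/-- The excess of the second moment over that of the ball of the same volume. -/
def excess (n : ℕ) (f : ℝ → ℝ) : ℝ :=
  (((n : ℝ) + 3) * (∫ t in (0:ℝ)..1, t ^ 2 * f t ^ n) /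
    (pw n f * (pw n f / pw n semi) ^ (2 / ((n : ℝ) + 1))) - 1) / 2

/-- No test function sees more than one unit of squared gradient. -/
def GradOK (n : ℕ) (f : ℝ → ℝ) : Prop :=
  ∀ ψ : ℝ → ℝ, ContDiff ℝ 2 ψ → (∀ t, ψ (-t) = -ψ t) → testQ n ψ f ≤ pw n f

end

end Vale.Agent.P237.Gen.Contact
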