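import Vale.Agent.P084.Contacts
import Vale.Agent.P237.Gen.Contact.Basic

/-!
John position of a symmetric body in coordinate space of dimension `n + 1`.
-/

namespace Vale.Agent.P237.Gen.Contact

open MeasureTheory Set Metric Filter
open scoped RealInnerProductSpace

noncomputable section

variable {n : ℕ}

theorem body_gauge_le_one_iff {X : Set (Fin (n + 1) → ℝ)} (hX : Gen.Body X)
    (x : Fin (n + 1) → ℝ) : gauge X x ≤ 1 ↔ x ∈ X := by
  rw [gauge_le_one_iff_mem_closure hX.1 (mem_interior_iff_mem_nhds.1 hX.2.2),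
    hX.2.1.isClosed.closure_eq]

theorem body_gauge_smul {X : Set (Fin (n + 1) → ℝ)} (hs : ∀ x ∈ X, -x ∈ X) (r : ℝ)
    (x : Fin (n + 1) → ℝ) : gauge X (r • x) = |r| * gauge X x := by
  rcases le_total 0 r with hr | hr
  · rw [gauge_smul_of_nonneg hr, abs_of_nonneg hr, smul_eq_mul]
  · rw [show r • x = -((-r) • x) by simp, gauge_neg hs,
      gauge_smul_of_nonneg (neg_nonneg.2 hr), abs_of_nonpos hr, smul_eq_mul]

/-- Coordinate space with the norm of which a symmetric body is the unit ball. -/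
def NormedBy {X : Set (Fin (n + 1) → ℝ)} (_ : Gen.Body X ∧ ∀ x ∈ X, -x ∈ X) : Type :=
  Fin (n + 1) → ℝ

namespace NormedBy

variable {X : Set (Fin (n + 1) → ℝ)} {h : Gen.Body X ∧ ∀ x ∈ X, -x ∈ X}

instance : AddCommGroup (NormedBy h) := inferInstanceAs (AddCommGroup (Fin (n + 1) → ℝ))

instance : Module ℝ (NormedBy h) := inferInstanceAs (Module ℝ (Fin (n + 1) → ℝ))

instance : FiniteDimensional ℝ (NormedBy h) :=
  inferInstanceAs (FiniteDimensional ℝ (Fin (n + 1) → ℝ))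

theorem absorbent {X : Set (Fin (n + 1) → ℝ)} (hX : Gen.Body X) : Absorbent ℝ X :=
  absorbent_nhds_zero (mem_interior_iff_mem_nhds.1 hX.2.2)

instance : Norm (NormedBy h) := ⟨fun x => gauge X (x : Fin (n + 1) → ℝ)⟩

instance : NormedAddCommGroup (NormedBy h) :=
  AddGroupNorm.toNormedAddCommGroup
    { toFun := fun x : NormedBy h => gauge X (x : Fin (n + 1) → ℝ)
      map_zero' := gauge_zero
      add_le' := fun x y => gauge_add_le h.1.1 (absorbent h.1) (x : Fin (n + 1) → ℝ)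
        (y : Fin (n + 1) → ℝ)
      neg' := fun x => gauge_neg h.2 (x : Fin (n + 1) → ℝ)
      eq_zero_of_map_eq_zero' := fun _ hx => (gauge_eq_zero (absorbent h.1)
        (NormedSpace.isVonNBounded_of_isBounded ℝ h.1.2.1.isBounded)).1 hx }

instance : NormedSpace ℝ (NormedBy h) where
  norm_smul_le r x := le_of_eq (body_gauge_smul h.2 r x)

theorem finrank_eq : Module.finrank ℝ (NormedBy h) = n + 1 := Module.finrank_fin_fun ℝ

instance : Nontrivial (NormedBy h) := inferInstanceAs (Nontrivial (Fin (n + 1) → ℝ))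

theorem norm_le_one_iff (x : NormedBy h) : ‖x‖ ≤ 1 ↔ (x : Fin (n + 1) → ℝ) ∈ X :=
  body_gauge_le_one_iff h.1 x

end NormedBy

/-- Every symmetric body has a linear image in John position. -/
theorem exists_johnPosition {X : Set (Fin (n + 1) → ℝ)} (hX : Gen.Body X)
    (hs : ∀ x ∈ X, -x ∈ X) : ∃ A : E n ≃ₗ[ℝ] (Fin (n + 1) → ℝ), InJohn (A ⁻¹' X) := by
  set h : Gen.Body X ∧ ∀ x ∈ X, -x ∈ X := ⟨hX, hs⟩
  obtain ⟨D⟩ := Vale.Agent.P084.exists_contactData (NormedBy h) NormedBy.finrank_eq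
  set A : E n ≃ₗ[ℝ] (Fin (n + 1) → ℝ) := D.coord.toLinearEquiv with hA
  have hmem : ∀ v, v ∈ A ⁻¹' X ↔ ‖D.coord v‖ ≤ 1 := fun v =>
    (NormedBy.norm_le_one_iff (D.coord v)).symm
  refine ⟨A, ⟨⟨?_, hX.1.linear_preimage A.toLinearMap, fun v hv => ?_⟩, fun x hx => ?_, ?_⟩⟩
  · have : (A : E n → Fin (n + 1) → ℝ) ⁻¹' X = A.symm '' X :=
      (LinearEquiv.image_symm_eq_preimage A X).symm
    rw [this]
    exact hX.2.1.image (LinearMap.continuous_of_finiteDimensional A.symm.toLinearMap)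
  · exact (hmem v).2 ((D.norm_le v).trans (mem_closedBall_zero_iff.1 hv))
  · show A (-x) ∈ X
    rw [map_neg]
    exact hs _ hx
  · exact ⟨D.m, D.weight, D.vec, D.weight_nonneg, by exact_mod_cast D.weight_sum, D.vec_norm,
      fun i x hx => (D.vec_le i x).trans ((hmem x).1 hx), D.decomp⟩

/-- A body in John position lies in the ball of radius `√(n + 1)`. -/
theorem InJohn.norm_le {K : Set (E n)} (hJ : InJohn K) {x : E n} (hx : x ∈ K) :
    ‖x‖ ≤ Real.sqrt ((n : ℝ) + 1) := by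
  obtain ⟨m, c, u, hc0, hcsum, -, huK, hdec⟩ := hJ.contacts
  refine Real.le_sqrt_of_sq_le ?_
  have h : ⟪∑ i, (c i * ⟪u i, x⟫) • u i, x⟫ = ‖x‖ ^ 2 := by
    rw [hdec x, real_inner_self_eq_norm_sq]
  rw [← h, ← hcsum]
  simp only [sum_inner, real_inner_smul_left]
  refine Finset.sum_le_sum fun i _ => ?_
  rw [mul_assoc, ← sq]
  exact mul_le_of_le_one_right (hc0 i) ((sq_le_one_iff_abs_le_one _).2 (huK i x hx))

end

end Vale.Agent.P237.Gen.Contact
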