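import Vale.Agent.P237.Gen.Contact.Layer

/-!
The derivative of the gauge in a direction `u` with `|⟪u, x⟫| ≤ gauge K x`, tested against
functions of `⟪u, x⟫ / gauge K x`: a lower bound that needs no derivative of the sections.
-/

namespace Vale.Agent.P237.Gen.Contact

open MeasureTheory Set Metric Filter
open scoped RealInnerProductSpace Pointwise Topology

noncomputable section

variable {n : ℕ} {K : Set (E n)}

/-- The derivative of the gauge in direction `u`. -/
def dg (K : Set (E n)) (u : E n) (x : E n) : ℝ := fderiv ℝ (gauge K) x u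

theorem measurable_dg (K : Set (E n)) (u : E n) : Measurable (dg K u) :=
  measurable_fderiv_apply_const ℝ _ _

theorem Ctr.norm_fderiv_le (hK : Ctr K) (x : E n) : ‖fderiv ℝ (gauge K) x‖ ≤ 1 := by
  simpa using norm_fderiv_le_of_lipschitz ℝ hK.lipschitz (x₀ := x)

theorem abs_dg_le (hK : Ctr K) {u : E n} (hu : ‖u‖ = 1) (x : E n) : |dg K u x| ≤ 1 := by
  rw [← Real.norm_eq_abs]
  refine ((fderiv ℝ (gauge K) x).le_opNorm u).trans ?_
  rw [hu, mul_one]
  exact hK.norm_fderiv_le x

theorem dg_smul (K : Set (E n)) (u : E n) {r : ℝ} (hr : 0 < r) (x : E n) :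
    dg K u (r • x) = dg K u x := by
  have e : (fun y => gauge K (r • y)) = fun y => r • gauge K y :=
    funext fun y => gauge_smul_of_nonneg hr.le y
  have h1 : fderiv ℝ (fun y => gauge K (r • y)) x = r • fderiv ℝ (gauge K) (r • x) :=
    fderiv_comp_smul r
  rw [e] at h1
  have h2 : fderiv ℝ (fun y => r • gauge K y) x = r • fderiv ℝ (gauge K) x := by
    by_cases hd : DifferentiableAt ℝ (gauge K) x
    · exact fderiv_fun_const_smul hd r
    · rw [fderiv_zero_of_not_differentiableAt hd, fderiv_zero_of_not_differentiableAt, smul_zero]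
      intro h
      refine hd (((h.const_smul r⁻¹)).congr_of_eventuallyEq (Eventually.of_forall fun y => ?_))
      simp [smul_smul, inv_mul_cancel₀ hr.ne', ← mul_assoc]
  rw [h2] at h1
  have := DFunLike.congr_fun h1 u
  simp only [ContinuousLinearMap.smul_apply, smul_eq_mul] at this
  exact (mul_left_cancel₀ hr.ne' this).symm

/-- The height of `x / gauge K x` in direction `u`. -/
def ht (K : Set (E n)) (u x : E n) : ℝ := ⟪u, x⟫ / gauge K x

theorem abs_ht_le {u : E n} (hK : Ctr K) (hu : ∀ x ∈ K, |⟪u, x⟫| ≤ 1) (x : E n) :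
    |⟪u, x⟫| ≤ gauge K x := by
  rcases eq_or_ne x 0 with rfl | hx
  · simp [gauge_zero]
  have hg := hK.gauge_pos hx
  have h := hu _ ((hK.gauge_le_one_iff ((gauge K x)⁻¹ • x)).1 (by
    rw [gauge_smul_of_nonneg (inv_nonneg.2 hg.le), smul_eq_mul, inv_mul_cancel₀ hg.ne']))
  rwa [real_inner_smul_right, abs_mul, abs_of_pos (inv_pos.2 hg), inv_mul_le_iff₀ hg, mul_one] at h

theorem ht_mem_Icc {u : E n} (hK : Ctr K) (hu : ∀ x ∈ K, |⟪u, x⟫| ≤ 1) (x : E n) :
    ht K u x ∈ Icc (-1 : ℝ) 1 := by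
  refine abs_le.1 ?_
  rw [ht, abs_div, abs_of_nonneg (gauge_nonneg x)]
  exact div_le_one_of_le₀ (abs_ht_le hK hu x) (gauge_nonneg x)

theorem exists_bound_Icc {ψ : ℝ → ℝ} (hψ : Continuous ψ) :
    ∃ C, 0 ≤ C ∧ ∀ t ∈ Icc (-1 : ℝ) 1, |ψ t| ≤ C := by
  obtain ⟨C, hC⟩ := isCompact_Icc.exists_bound_of_continuousOn hψ.continuousOn (s := Icc (-1:ℝ) 1)
  exact ⟨C, (norm_nonneg _).trans (hC 0 (by simp)), fun t ht => hC t ht⟩

theorem integrableOn_ht_mul (hK : Ctr K) {u : E n} (hu : ∀ x ∈ K, |⟪u, x⟫| ≤ 1) {F : E n → ℝ}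
    (hFm : Measurable F) {B : ℝ} (hFb : ∀ x, |F x| ≤ B) {ψ : ℝ → ℝ} (hψ : Continuous ψ) :
    IntegrableOn (fun x => F x * ψ (ht K u x)) K := by
  obtain ⟨C, hC0, hC⟩ := exists_bound_Icc hψ
  refine Measure.integrableOn_of_bounded (M := B * C) hK.compact.measure_lt_top.ne
    ((hFm.mul (hψ.measurable.comp ((continuous_const.inner continuous_id).measurable.div
      hK.continuous_gauge.measurable))).aestronglyMeasurable) (Eventually.of_forall fun x => ?_)
  rw [Real.norm_eq_abs, abs_mul]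
  exact mul_le_mul (hFb x) (hC _ (ht_mem_Icc hK hu x)) (abs_nonneg _) ((abs_nonneg _).trans (hFb x))

theorem integrableOn_inner_mul (hK : Ctr K) (u : E n) {F : E n → ℝ} (hFm : Measurable F) {B : ℝ}
    (hFb : ∀ x, |F x| ≤ B) {ψ : ℝ → ℝ} (hψ : Continuous ψ) :
    IntegrableOn (fun x => F x * ψ ⟪u, x⟫) K := by
  obtain ⟨C, hC⟩ := hK.compact.exists_bound_of_continuousOn
    (hψ.comp (continuous_const.inner continuous_id) : Continuous fun x : E n => ψ ⟪u, x⟫).continuousOn
  refine Measure.integrableOn_of_bounded (M := B * C) hK.compact.measure_lt_top.ne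
    ((hFm.mul (hψ.comp (continuous_const.inner continuous_id)).measurable).aestronglyMeasurable) ?_
  filter_upwards [ae_restrict_mem hK.compact.measurableSet] with x hx
  rw [Real.norm_eq_abs, abs_mul]
  exact mul_le_mul (hFb x) (hC x hx) (abs_nonneg _) ((abs_nonneg _).trans (hFb x))

/-- The distribution of the height of `x / gauge K x`. -/
theorem integral_ht (hK : Ctr K) {u : E n} (hu : ∀ x ∈ K, |⟪u, x⟫| ≤ 1) {F : E n → ℝ}
    (hFm : Measurable F) {B : ℝ} (hFb : ∀ x, |F x| ≤ B)
    (hFh : ∀ r : ℝ, 0 < r → ∀ x, F (r • x) = F x) {ψ : ℝ → ℝ} (hψ : ContDiff ℝ 1 ψ) :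
    ∫ x in K, F x * ψ (ht K u x) =
      ∫ x in K, F x * (ψ ⟪u, x⟫ + ⟪u, x⟫ * deriv ψ ⟪u, x⟫ / (n + 1)) := by
  have hd : Continuous (deriv ψ) := hψ.continuous_deriv (by simp)
  have hη : Continuous fun t => ψ t + t * deriv ψ t / ((n : ℝ) + 1) := by
    have := hψ.continuous
    fun_prop
  obtain ⟨C, hC0, hC⟩ := exists_bound_Icc hd
  have hB0 : 0 ≤ B := (abs_nonneg _).trans (hFb 0)
  set w : E n → ℝ → ℝ := fun x r => F x * (⟪u, x⟫ / r ^ 2 * deriv ψ (⟪u, x⟫ / r)) with hw
  have hip : Measurable fun p : E n × ℝ => ⟪u, p.1⟫ :=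
    (continuous_const.inner continuous_fst).measurable
  have hwm : Measurable (Function.uncurry w) :=
    (hFm.comp measurable_fst).mul ((hip.div (measurable_snd.pow_const 2)).mul
      (hd.measurable.comp (hip.div measurable_snd)))
  have hwb : ∀ x r, 0 < r → r < 1 → gauge K x ≤ r → |w x r| ≤ B * C / r := by
    intro x r h0 _ hg
    have ha : |⟪u, x⟫| ≤ r := (abs_ht_le hK hu x).trans hg
    have h2 : |⟪u, x⟫ / r ^ 2| ≤ 1 / r := by
      rw [abs_div, abs_of_pos (by positivity : (0:ℝ) < r ^ 2), div_le_div_iff₀ (by positivity) h0]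
      nlinarith
    have h3 : |deriv ψ (⟪u, x⟫ / r)| ≤ C := hC _ (abs_le.1 (by
      rw [abs_div, abs_of_pos h0]; exact (div_le_one h0).2 ha))
    rw [hw, abs_mul, abs_mul, show B * C / r = B * (1 / r * C) by ring]
    exact mul_le_mul (hFb x) (mul_le_mul h2 h3 (abs_nonneg _) (by positivity)) (by positivity) hB0
  obtain ⟨hi, he⟩ := layer hK w hwm _ hwb
  have hin : ∀ᵐ x ∂volume.restrict K,
      (∫ r in gauge K x..1, w x r) = F x * ψ (ht K u x) - F x * ψ ⟪u, x⟫ := by
    filter_upwards [ae_restrict_mem hK.compact.measurableSet,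
      ae_restrict_of_ae (Measure.ae_ne volume (0 : E n))] with x hx hx0
    have hg := hK.gauge_pos hx0
    have hg1 := (hK.gauge_le_one_iff x).2 hx
    have hmem : ∀ r ∈ uIcc (gauge K x) 1, r ≠ 0 := fun r hr => by
      rw [uIcc_of_le hg1] at hr
      exact (hg.trans_le hr.1).ne'
    have hder : ∀ r ∈ uIcc (gauge K x) 1,
        HasDerivAt (fun r => -(F x * ψ (⟪u, x⟫ / r))) (w x r) r := by
      intro r hr
      have h1 : HasDerivAt (fun r : ℝ => ⟪u, x⟫ / r) (-(⟪u, x⟫ / r ^ 2)) r := by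
        simpa [div_eq_mul_inv] using (hasDerivAt_inv (hmem r hr)).const_mul ⟪u, x⟫
      have h2 := (hψ.differentiable (by simp) (⟪u, x⟫ / r)).hasDerivAt.comp r h1
      refine ((h2.const_mul (F x)).neg).congr_deriv ?_
      simp only [hw]
      ring
    have hcont : ContinuousOn (fun r => w x r) (uIcc (gauge K x) 1) :=
      continuousOn_const.mul ((continuousOn_const.div (continuousOn_id.pow 2)
        fun r hr => pow_ne_zero _ (hmem r hr)).mul
          (hd.comp_continuousOn (continuousOn_const.div continuousOn_id hmem)))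
    rw [intervalIntegral.integral_eq_sub_of_hasDerivAt hder hcont.intervalIntegrable, ht, div_one]
    ring
  rw [integral_congr_ae hin, integral_sub (integrableOn_ht_mul hK hu hFm hFb hψ.continuous)
    (integrableOn_inner_mul hK u hFm hFb hψ.continuous)] at he
  have hr : ∀ r ∈ Ioc (0:ℝ) 1, r ^ (n + 1) * (∫ y in K, w (r • y) r) =
      r ^ n * ∫ y in K, F y * (⟪u, y⟫ * deriv ψ ⟪u, y⟫) := by
    intro r hr
    have e : ∀ y, w (r • y) r = r⁻¹ * (F y * (⟪u, y⟫ * deriv ψ ⟪u, y⟫)) := by
      intro y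
      simp only [hw, hFh r hr.1, real_inner_smul_right]
      rw [mul_div_cancel_left₀ _ hr.1.ne']
      field_simp [hr.1.ne']
    simp only [e, integral_const_mul]
    field_simp [hr.1.ne']
    ring
  rw [intervalIntegral.integral_of_le zero_le_one, setIntegral_congr_fun measurableSet_Ioc hr,
    ← intervalIntegral.integral_of_le zero_le_one, intervalIntegral.integral_mul_const,
    integral_pow] at he
  simp only [one_pow, ne_eq, Nat.add_eq_zero_iff, one_ne_zero, and_false, not_false_eq_true,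
    zero_pow, sub_zero] at he
  have e2 : ∀ x : E n, F x * (ψ ⟪u, x⟫ + ⟪u, x⟫ * deriv ψ ⟪u, x⟫ / (n + 1)) =
      F x * ψ ⟪u, x⟫ + 1 / ((n : ℝ) + 1) * (F x * (⟪u, x⟫ * deriv ψ ⟪u, x⟫)) := fun x => by ring
  simp only [e2]
  rw [integral_add (integrableOn_inner_mul hK u hFm hFb hψ.continuous)
    ((integrableOn_inner_mul hK u hFm hFb (ψ := fun t => t * deriv ψ t)
      (continuous_id.mul hd)).const_mul _), integral_const_mul]
  linarith

/-- Integration by parts against `1 - gauge`. -/
theorem integral_deriv_mul_one_sub (hK : Ctr K) {u : E n} (hu1 : ‖u‖ = 1)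
    (hu : ∀ x ∈ K, |⟪u, x⟫| ≤ 1) {η : ℝ → ℝ} (hη : ContDiff ℝ 1 η) :
    ∫ x in K, deriv η ⟪u, x⟫ * (1 - gauge K x) = ∫ x in K, η ⟪u, x⟫ * dg K u x := by
  have hd : Continuous (deriv η) := hη.continuous_deriv (by simp)
  obtain ⟨C, hC⟩ := isCompact_Icc.exists_bound_of_continuousOn hd.continuousOn (s := Icc (-2:ℝ) 2)
  have hL : LipschitzOnWith C.toNNReal η (Icc (-2:ℝ) 2) :=
    (convex_Icc _ _).lipschitzOnWith_of_nnnorm_deriv_le
      (fun t _ => hη.differentiable (by simp) t)
      (fun t ht => by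
        rw [← NNReal.coe_le_coe, coe_nnnorm]
        exact (hC t ht).trans (Real.le_coe_toNNReal C))
  set p : ℝ → ℝ := fun t => max (-2) (min 2 t) with hp
  have hpL : LipschitzWith 1 p := by
    simpa [hp] using (LipschitzWith.id.const_min (2:ℝ)).const_max (-2:ℝ)
  have hηp : LipschitzWith C.toNNReal (η ∘ p) := by
    have := hL.comp (hpL.lipschitzOnWith (s := univ)) fun t _ =>
      ⟨le_max_left _ _, max_le (by norm_num) (min_le_left _ _)⟩
    simpa using this
  have hin : LipschitzWith 1 fun x : E n => ⟪u, x⟫ := by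
    refine LipschitzWith.of_dist_le_mul fun x y => ?_
    rw [Real.dist_eq, ← inner_sub_right, NNReal.coe_one, one_mul, dist_eq_norm]
    simpa [hu1] using abs_real_inner_le_norm u (x - y)
  set f : E n → ℝ := fun x => η (p ⟪u, x⟫) with hf
  have hfL : LipschitzWith (C.toNNReal * 1) f := hηp.comp hin
  set T : E n → ℝ := fun x => max (1 - gauge K x) 0 with hT
  obtain ⟨D, hTL⟩ : ∃ D, LipschitzWith D T :=
    ⟨_, ((LipschitzWith.const (1 : ℝ)).sub hK.lipschitz).max_const 0⟩
  have hTout : ∀ x ∉ K, T x = 0 := fun x hx => max_eq_right (by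
    linarith [not_le.1 fun h => hx ((hK.gauge_le_one_iff x).1 h)])
  have hTc : HasCompactSupport T := HasCompactSupport.intro hK.compact hTout
  have hLHS : ∀ x, lineDeriv ℝ f x u * T x =
      K.indicator (fun x => deriv η ⟪u, x⟫ * (1 - gauge K x)) x := by
    intro x
    by_cases hx : x ∈ K
    · have hg := (hK.gauge_le_one_iff x).2 hx
      rw [indicator_of_mem hx, show T x = 1 - gauge K x from max_eq_left (by linarith)]
      congr 1
      have hev : (fun t : ℝ => f (x + t • u)) =ᶠ[𝓝 0] fun t => η (⟪u, x⟫ + t) := by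
        filter_upwards [Metric.ball_mem_nhds (0:ℝ) one_pos] with t ht
        rw [mem_ball_zero_iff, Real.norm_eq_abs, abs_lt] at ht
        have h := abs_le.1 (hu x hx)
        have e : ⟪u, x + t • u⟫ = ⟪u, x⟫ + t := by
          rw [inner_add_right, real_inner_smul_right, real_inner_self_eq_norm_sq, hu1]; ring
        simp only [hf, e, hp]
        rw [min_eq_right (by linarith [h.2]), max_eq_right (by linarith [h.1])]
      rw [lineDeriv, hev.deriv_eq, deriv_comp_const_add, add_zero]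
    · rw [indicator_of_notMem hx, hTout x hx, mul_zero]
  have hRHS : ∀ᵐ x, lineDeriv ℝ T x (-u) * f x = K.indicator (fun x => η ⟪u, x⟫ * dg K u x) x := by
    filter_upwards [hK.lipschitz.ae_differentiableAt (μ := volume),
      measure_eq_zero_iff_ae_notMem.1 (hK.convex.addHaar_frontier (volume : Measure (E n)))]
      with x hdiff hfr
    by_cases hx : x ∈ K
    · have hint : x ∈ interior K := by
        by_contra h
        exact hfr ⟨subset_closure hx, h⟩
      rw [indicator_of_mem hx]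
      have hev : T =ᶠ[𝓝 x] fun y => 1 - gauge K y := by
        filter_upwards [isOpen_interior.mem_nhds hint] with y hy
        exact max_eq_left (by linarith [(hK.gauge_le_one_iff y).2 (interior_subset hy)])
      have hD : HasFDerivAt T (-fderiv ℝ (gauge K) x) x :=
        (hdiff.hasFDerivAt.const_sub 1).congr_of_eventuallyEq hev
      rw [(hD.hasLineDerivAt (-u)).lineDeriv]
      have h := abs_le.1 (hu x hx)
      simp only [hf, hp, dg, ContinuousLinearMap.neg_apply, map_neg, neg_neg]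
      rw [min_eq_right (by linarith [h.2]), max_eq_right (by linarith [h.1]), mul_comm]
    · rw [indicator_of_notMem hx]
      have hD : HasFDerivAt T (0 : E n →L[ℝ] ℝ) x := by
        refine (hasFDerivAt_const (0:ℝ) x).congr_of_eventuallyEq ?_
        filter_upwards [hK.compact.isClosed.isOpen_compl.mem_nhds hx] with y hy
        exact hTout y hy
      rw [(hD.hasLineDerivAt (-u)).lineDeriv]
      simp
  have key := LipschitzWith.integral_lineDeriv_mul_eq (μ := (volume : Measure (E n))) hfL hTL hTc u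
  rw [integral_congr_ae (Eventually.of_forall hLHS), integral_congr_ae hRHS,
    integral_indicator hK.compact.measurableSet, integral_indicator hK.compact.measurableSet] at key
  exact key

/-- The mean of the derivative of the gauge against a function of the height. -/
theorem integral_dg_ht (hK : Ctr K) {u : E n} (hu1 : ‖u‖ = 1) (hu : ∀ x ∈ K, |⟪u, x⟫| ≤ 1)
    {ψ : ℝ → ℝ} (hψ : ContDiff ℝ 2 ψ) :
    ((n : ℝ) + 1) * ∫ x in K, dg K u x * ψ (ht K u x) = ∫ x in K, deriv ψ ⟪u, x⟫ := by
  have hψ1 : ContDiff ℝ 1 ψ := hψ.of_le (by norm_num)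
  have hd1 : ContDiff ℝ 1 (deriv ψ) := hψ.deriv'
  set η : ℝ → ℝ := fun t => ((n : ℝ) + 1) * ψ t + t * deriv ψ t with hη
  have hηc : ContDiff ℝ 1 η := (contDiff_const.mul hψ1).add (contDiff_id.mul hd1)
  have hder : ∀ t, deriv η t = ((n : ℝ) + 2) * deriv ψ t + t * deriv (deriv ψ) t := by
    intro t
    have a := ((hψ1.differentiable (by simp) t).hasDerivAt.const_mul ((n : ℝ) + 1))
    have b := (hasDerivAt_id t).mul (hd1.differentiable (by simp) t).hasDerivAt
    refine ((a.add b).deriv.trans ?_)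
    simp
    ring
  have hdη : Continuous (deriv η) := hηc.continuous_deriv (by simp)
  rw [integral_ht hK hu (measurable_dg K u) (abs_dg_le hK hu1) (fun r hr x => dg_smul K u hr x) hψ1,
    ← integral_const_mul]
  have e1 : ∀ x, ((n : ℝ) + 1) * (dg K u x * (ψ ⟪u, x⟫ + ⟪u, x⟫ * deriv ψ ⟪u, x⟫ / (n + 1))) =
      η ⟪u, x⟫ * dg K u x := fun x => by
    simp only [hη]
    field_simp
  simp only [e1]
  rw [← integral_deriv_mul_one_sub hK hu1 hu hηc]
  obtain ⟨C, hC0, hC⟩ := exists_bound_Icc hdη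
  have hip : Measurable fun p : E n × ℝ => ⟪u, p.1⟫ :=
    (continuous_const.inner continuous_fst).measurable
  obtain ⟨-, he⟩ := layer hK (fun x _ => deriv η ⟪u, x⟫) (hdη.measurable.comp hip) C
    fun x r h0 h1 hg => by
      refine (hC _ (abs_le.1 (((abs_ht_le hK hu x).trans hg).trans h1.le))).trans ?_
      rw [le_div_iff₀ h0]
      nlinarith
  simp only [intervalIntegral.integral_const, smul_eq_mul] at he
  rw [show (∫ x in K, deriv η ⟪u, x⟫ * (1 - gauge K x)) =
      ∫ x in K, (1 - gauge K x) * deriv η ⟪u, x⟫ from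
    integral_congr_ae (Eventually.of_forall fun x => mul_comm _ _), he]
  set G : ℝ → E n → ℝ := fun r y => r ^ (n + 1) * deriv η ⟪u, r • y⟫ with hG
  have hGc : Continuous (Function.uncurry G) := by
    simp only [hG]
    exact (continuous_fst.pow _).mul
      (hdη.comp (continuous_const.inner (continuous_fst.smul continuous_snd)))
  haveI : IsFiniteMeasure (volume.restrict K) :=
    ⟨by rw [Measure.restrict_apply_univ]; exact hK.compact.measure_lt_top⟩
  have hGi : Integrable (Function.uncurry G)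
      ((volume.restrict (Ioc (0:ℝ) 1)).prod (volume.restrict K)) := by
    rw [Measure.prod_restrict]
    exact (hGc.continuousOn.integrableOn_compact (isCompact_Icc.prod hK.compact)).mono_set
      (prod_mono Ioc_subset_Icc_self subset_rfl)
  rw [intervalIntegral.integral_of_le zero_le_one]
  simp only [← integral_const_mul]
  refine (integral_integral_swap hGi).trans ?_
  refine setIntegral_congr_fun hK.compact.measurableSet fun y _ => ?_
  show (∫ r in Ioc (0:ℝ) 1, r ^ (n + 1) * deriv η ⟪u, r • y⟫) = _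
  rw [← intervalIntegral.integral_of_le zero_le_one]
  set a := ⟪u, y⟫ with ha
  have hF : ∀ r ∈ uIcc (0:ℝ) 1, HasDerivAt (fun r => r ^ (n + 2) * deriv ψ (r * a))
      (r ^ (n + 1) * deriv η ⟪u, r • y⟫) r := by
    intro r _
    have a1 : HasDerivAt (fun r : ℝ => r ^ (n + 2)) (((n + 2 : ℕ) : ℝ) * r ^ (n + 1)) r :=
      hasDerivAt_pow (n + 2) r
    have a2 := (hd1.differentiable (by simp) (r * a)).hasDerivAt.comp r
      ((hasDerivAt_id r).mul_const a)
    refine (a1.mul a2).congr_deriv ?_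
    rw [real_inner_smul_right, ← ha, hder]
    simp only [Function.comp_apply, id_eq]
    push_cast
    ring
  rw [intervalIntegral.integral_eq_sub_of_hasDerivAt hF
    ((hGc.comp (Continuous.prodMk continuous_id (continuous_const (y := y)))).intervalIntegrable _ _)]
  simp

/-- **Lower bound for the squared derivative of the gauge**, for every test function. -/
theorem le_integral_dg_sq (hK : Ctr K) {u : E n} (hu1 : ‖u‖ = 1) (hu : ∀ x ∈ K, |⟪u, x⟫| ≤ 1)
    {ψ : ℝ → ℝ} (hψ : ContDiff ℝ 2 ψ) :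
    ∫ x in K, (2 * deriv ψ ⟪u, x⟫ - ((n : ℝ) + 1) * ψ ⟪u, x⟫ ^ 2
        - 2 * ⟪u, x⟫ * ψ ⟪u, x⟫ * deriv ψ ⟪u, x⟫) ≤
      ((n : ℝ) + 1) * ∫ x in K, dg K u x ^ 2 := by
  have hψ1 : ContDiff ℝ 1 ψ := hψ.of_le (by norm_num)
  have hd : Continuous (deriv ψ) := hψ1.continuous_deriv (by simp)
  have hc := hψ1.continuous
  have i1 : IntegrableOn (fun x => dg K u x * ψ (ht K u x)) K :=
    integrableOn_ht_mul hK hu (measurable_dg K u) (abs_dg_le hK hu1) hc
  have i2 : IntegrableOn (fun x => (1:ℝ) * (fun t => ψ t ^ 2) (ht K u x)) K :=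
    integrableOn_ht_mul hK hu measurable_const (B := 1) (fun _ => by simp) (hc.pow 2)
  have i3 : IntegrableOn (fun x => dg K u x ^ 2) K :=
    Measure.integrableOn_of_bounded (M := 1) hK.compact.measure_lt_top.ne
      ((measurable_dg K u).pow_const 2).aestronglyMeasurable
      (Eventually.of_forall fun x => by
        rw [Real.norm_eq_abs, abs_pow, sq_le_one_iff_abs_le_one, abs_abs]
        exact abs_dg_le hK hu1 x)
  have hA := integral_dg_ht hK hu1 hu hψ
  have hB := integral_ht hK hu (F := fun _ => (1:ℝ)) measurable_const (B := 1) (fun _ => by simp)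
    (fun _ _ _ => rfl) (ψ := fun t => ψ t ^ 2) (hψ1.pow 2)
  have e : ∀ t, deriv (fun t => ψ t ^ 2) t = 2 * ψ t * deriv ψ t := fun t => by
    have := ((hψ1.differentiable (by simp) t).hasDerivAt.fun_pow 2).deriv
    simpa using this
  simp only [one_mul, e] at hB
  simp only [one_mul] at i2
  have key : 2 * ∫ x in K, dg K u x * ψ (ht K u x) ≤
      (∫ x in K, dg K u x ^ 2) + ∫ x in K, ψ (ht K u x) ^ 2 := by
    rw [← integral_const_mul, ← integral_add i3 i2]
    exact integral_mono (i1.const_mul 2) (i3.add i2) fun x => by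
      simp only [Pi.add_apply]
      nlinarith [sq_nonneg (dg K u x - ψ (ht K u x))]
  have hcont : ∀ {h : ℝ → ℝ}, Continuous h → IntegrableOn (fun x : E n => h ⟪u, x⟫) K :=
    fun h => (h.comp (continuous_const.inner continuous_id)).continuousOn.integrableOn_compact
      hK.compact
  have hS : ∫ x in K, (2 * deriv ψ ⟪u, x⟫ - ((n : ℝ) + 1) * ψ ⟪u, x⟫ ^ 2
        - 2 * ⟪u, x⟫ * ψ ⟪u, x⟫ * deriv ψ ⟪u, x⟫) =
      2 * (∫ x in K, deriv ψ ⟪u, x⟫) - ((n : ℝ) + 1) *
        ∫ x in K, (ψ ⟪u, x⟫ ^ 2 + ⟪u, x⟫ * (2 * ψ ⟪u, x⟫ * deriv ψ ⟪u, x⟫) / (n + 1)) := by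
    rw [← integral_const_mul, ← integral_const_mul,
      ← integral_sub ((hcont hd).const_mul 2) ((hcont (h := fun t => ψ t ^ 2 +
        t * (2 * ψ t * deriv ψ t) / ((n:ℝ) + 1)) (by fun_prop)).const_mul _)]
    refine setIntegral_congr_fun hK.compact.measurableSet fun x _ => ?_
    field_simp
    ring
  rw [hS, ← hA, ← hB]
  have h0 : (0:ℝ) ≤ (n:ℝ) + 1 := by positivity
  nlinarith [mul_le_mul_of_nonneg_left key h0]

/-- Isotropic directions see at most one unit of squared gradient. -/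
theorem sum_dg_sq_le (hK : Ctr K) {ι : Type} [Fintype ι] (c : ι → ℝ) (u : ι → E n)
    (hdec : ∀ v, ∑ i, (c i * ⟪u i, v⟫) • u i = v) (x : E n) :
    ∑ i, c i * dg K (u i) x ^ 2 ≤ 1 := by
  set w := (InnerProductSpace.toDual ℝ (E n)).symm (fderiv ℝ (gauge K) x) with hw
  have e : ∀ v, dg K v x = ⟪w, v⟫ := fun v => by
    rw [hw, InnerProductSpace.toDual_symm_apply]; rfl
  have h : ⟪∑ i, (c i * ⟪u i, w⟫) • u i, w⟫ = ‖w‖ ^ 2 := by
    rw [hdec w, real_inner_self_eq_norm_sq]
  simp only [sum_inner, real_inner_smul_left] at h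
  have h1 : ∑ i, c i * dg K (u i) x ^ 2 = ‖w‖ ^ 2 := by
    rw [← h]
    refine Finset.sum_congr rfl fun i _ => ?_
    rw [e, real_inner_comm w (u i)]
    ring
  rw [h1, sq_le_one_iff₀ (norm_nonneg _), hw, LinearIsometryEquiv.norm_map]
  exact hK.norm_fderiv_le x

end

end Vale.Agent.P237.Gen.Contact
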