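import Vale.Agent.P237.Gen.Contact.Basic
import Vale.Agent.P237.Gen.Induct

/-!
Ball volumes through the integrals of the semicircle, and the sharp contact constant.
-/

namespace Vale.Agent.P237.Gen.Contact

open MeasureTheory Set Metric Filter

noncomputable section

open Every (kappa)

theorem pw_semi_eq (n : ℕ) :
    2 * pw n semi = ∫ x in (0:ℝ)..Real.pi, Real.sin x ^ (n + 1) := by
  have h1 : ∫ x in (0:ℝ)..(Real.pi / 2), semi (Real.sin x) ^ n * Real.cos x
      = ∫ t in (0:ℝ)..1, semi t ^ n := by
    have h := intervalIntegral.integral_comp_mul_deriv (a := 0) (b := Real.pi / 2)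
      (f := Real.sin) (f' := Real.cos) (g := fun t => semi t ^ n)
      (fun x _ => Real.hasDerivAt_sin x) Real.continuous_cos.continuousOn
      (by unfold semi; fun_prop)
    simpa [Function.comp_def] using h
  have hc : pw n semi = ∫ x in (0:ℝ)..(Real.pi / 2), Real.cos x ^ (n + 1) := by
    rw [pw, ← h1]
    refine intervalIntegral.integral_congr fun x hx => ?_
    rw [uIcc_of_le (by positivity)] at hx
    have h0 : 0 ≤ Real.cos x := Real.cos_nonneg_of_mem_Icc ⟨by linarith [hx.1, Real.pi_pos], hx.2⟩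
    simp only [semi]
    rw [← Real.cos_sq', Real.sqrt_sq h0, pow_succ]
  have ha : ∫ x in (0:ℝ)..(Real.pi / 2), Real.cos x ^ (n + 1)
      = ∫ x in (0:ℝ)..(Real.pi / 2), Real.sin x ^ (n + 1) := by
    have h := intervalIntegral.integral_comp_sub_left (a := 0) (b := Real.pi / 2)
      (fun x => Real.sin x ^ (n + 1)) (Real.pi / 2)
    simpa [Real.sin_pi_div_two_sub] using h
  have hb : ∫ x in (Real.pi / 2)..Real.pi, Real.sin x ^ (n + 1)
      = ∫ x in (0:ℝ)..(Real.pi / 2), Real.sin x ^ (n + 1) := by
    have h := intervalIntegral.integral_comp_sub_left (a := 0) (b := Real.pi / 2)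
      (fun x => Real.sin x ^ (n + 1)) Real.pi
    simp only [Real.sin_pi_sub, sub_zero] at h
    rw [show Real.pi - Real.pi / 2 = Real.pi / 2 by ring] at h
    exact h.symm
  have hi : ∀ a b : ℝ, IntervalIntegrable (fun x => Real.sin x ^ (n + 1)) volume a b :=
    fun a b => (Real.continuous_sin.pow _).intervalIntegrable a b
  rw [← intervalIntegral.integral_add_adjacent_intervals (hi 0 (Real.pi / 2)) (hi _ Real.pi),
    hb, hc, ha]
  ring

theorem pw_semi_pos (m : ℕ) : 0 < pw m semi := by
  have := integral_sin_pow_pos (n := m + 1)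
  rw [← pw_semi_eq] at this
  linarith

theorem kappa_eq (n : ℕ) :
    kappa n = Real.sqrt Real.pi ^ n / Real.Gamma ((n : ℝ) / 2 + 1) := by
  rcases Nat.eq_zero_or_pos n with rfl | hn
  · have h : volume (ball (0 : EuclideanSpace ℝ (Fin 0)) 1) = 1 := by
      have hb : ball (0 : EuclideanSpace ℝ (Fin 0)) 1 = univ :=
        eq_univ_of_forall fun x => by simp [Subsingleton.elim x 0]
      rw [hb]
      have e := (PiLp.volume_preserving_ofLp (Fin 0)).measure_preimage (s := univ)
        MeasurableSet.univ.nullMeasurableSet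
      rw [preimage_univ] at e
      rw [e, volume_pi, Measure.pi_univ]
      simp
    simp [kappa, measureReal_def, h]
  · have : Nonempty (Fin n) := ⟨⟨0, hn⟩⟩
    rw [kappa, measureReal_def, EuclideanSpace.volume_ball]
    simp only [Fintype.card_fin, ENNReal.ofReal_one, one_pow, one_mul]
    exact ENNReal.toReal_ofReal (div_nonneg (by positivity)
      (Real.Gamma_pos_of_pos (by positivity)).le)

theorem kappa_add_two (n : ℕ) :
    kappa (n + 2) = kappa n * (2 * Real.pi / ((n : ℝ) + 2)) := by
  have h : (((n + 2 : ℕ) : ℝ)) / 2 + 1 = ((n : ℝ) / 2 + 1) + 1 := by push_cast; ring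
  rw [kappa_eq, kappa_eq, h, Real.Gamma_add_one (by positivity), pow_add,
    Real.sq_sqrt Real.pi_pos.le]
  have := (Real.Gamma_pos_of_pos (show (0:ℝ) < (n : ℝ) / 2 + 1 by positivity)).ne'
  field_simp

theorem kappa_succ (n : ℕ) : kappa (n + 1) = 2 * kappa n * pw n semi := by
  have key : ∀ n, kappa (n + 1) = kappa n * ∫ x in (0:ℝ)..Real.pi, Real.sin x ^ (n + 1) := by
    intro n
    induction n using Nat.twoStepInduction with
    | zero =>
      have h32 : Real.Gamma ((1 : ℝ) / 2 + 1) = Real.sqrt Real.pi / 2 := by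
        rw [Real.Gamma_add_one (by norm_num), Real.Gamma_one_half_eq]; ring
      have hsp : 0 < Real.sqrt Real.pi := Real.sqrt_pos.2 Real.pi_pos
      simp only [kappa_eq, Nat.cast_one, zero_add, Nat.cast_zero, zero_div, pow_zero, pow_one,
        Real.Gamma_one, h32, integral_sin, Real.cos_zero, Real.cos_pi]
      field_simp
      norm_num
    | one =>
      have h32 : Real.Gamma ((1 : ℝ) / 2 + 1) = Real.sqrt Real.pi / 2 := by
        rw [Real.Gamma_add_one (by norm_num), Real.Gamma_one_half_eq]; ring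
      have hsp : 0 < Real.sqrt Real.pi := Real.sqrt_pos.2 Real.pi_pos
      have h3 : Real.Gamma (3 / 2) = Real.sqrt Real.pi / 2 := by rw [← h32]; norm_num
      simp [kappa_eq, integral_sin_sq, Real.sq_sqrt Real.pi_pos.le]
      norm_num [Real.Gamma_two]
      field_simp
      rw [h3]; ring
    | more n ih _ =>
      rw [show n + 1 + 1 + 1 = (n + 1) + 2 from rfl, kappa_add_two, ih, integral_sin_pow,
        show n + 1 + 1 = n + 2 from rfl, kappa_add_two n]
      simp
      field_simp
      ring
  rw [key, ← pw_semi_eq]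
  ring

theorem pcN_ratio {n : ℕ} (hn : 2 ≤ n) :
    pcN (n + 1) / pcN n = 2 * pw (n - 1) semi ^ n / pw n semi ^ (n - 1) := by
  obtain ⟨m, rfl⟩ : ∃ m, n = m + 2 := ⟨n - 2, by omega⟩
  simp only [pcN, show m + 2 + 1 - 1 = m + 2 from rfl, show m + 2 + 1 - 2 = m + 1 from rfl,
    show m + 2 - 1 = m + 1 from rfl, show m + 2 - 2 = m from rfl]
  rw [kappa_succ (m + 2), show kappa (m + 2) = 2 * kappa (m + 1) * pw (m + 1) semi from
    kappa_succ (m + 1)]
  have h1 := (kappa_pos (m + 1)).ne'
  have h2 := (pw_semi_pos (m + 1)).ne'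
  have h3 := (pw_semi_pos (m + 2)).ne'
  simp only [mul_pow, pow_succ]
  field_simp

end

end Vale.Agent.P237.Gen.Contact
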