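import Mathlib

/-!
Layer-cake identities for the gauge of a convex body containing the unit ball, in Euclidean space
of dimension `n + 1`.
-/

namespace Vale.Agent.P237.Gen.Contact

open MeasureTheory Set Metric Filter
open scoped RealInnerProductSpace Pointwise Topology

noncomputable section

/-- Euclidean space of dimension `n + 1`. -/
abbrev E (n : ℕ) : Type := EuclideanSpace ℝ (Fin (n + 1))

variable {n : ℕ} {K : Set (E n)}

/-- A compact convex set containing the unit ball. -/
structure Ctr (K : Set (E n)) : Prop where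
  compact : IsCompact K
  convex : Convex ℝ K
  ball : closedBall 0 1 ⊆ K

theorem Ctr.nhds (hK : Ctr K) : K ∈ 𝓝 (0 : E n) :=
  mem_of_superset (closedBall_mem_nhds _ one_pos) hK.ball

theorem Ctr.absorbent (hK : Ctr K) : Absorbent ℝ K := absorbent_nhds_zero hK.nhds

theorem Ctr.lipschitz (hK : Ctr K) : LipschitzWith 1 (gauge K) := by
  simpa using hK.convex.lipschitzWith_gauge (r := 1) one_pos (ball_subset_closedBall.trans hK.ball)

theorem Ctr.continuous_gauge (hK : Ctr K) : Continuous (gauge K) := hK.lipschitz.continuous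

theorem Ctr.gauge_le_norm (hK : Ctr K) (x : E n) : gauge K x ≤ ‖x‖ := by
  simpa [gauge_zero, dist_eq_norm, abs_of_nonneg (gauge_nonneg x)] using hK.lipschitz.dist_le_mul x 0

theorem Ctr.gauge_le_iff (hK : Ctr K) {r : ℝ} (hr : 0 < r) (x : E n) :
    gauge K x ≤ r ↔ x ∈ r • K := by
  rw [mem_smul_set_iff_inv_smul_mem₀ hr.ne']
  have h := gauge_le_one_iff_mem_closure (x := r⁻¹ • x) hK.convex hK.nhds
  rw [hK.compact.isClosed.closure_eq, gauge_smul_of_nonneg (inv_nonneg.2 hr.le), smul_eq_mul,
    inv_mul_le_iff₀ hr, mul_one] at h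
  exact h

theorem Ctr.gauge_le_one_iff (hK : Ctr K) (x : E n) : gauge K x ≤ 1 ↔ x ∈ K := by
  simpa using hK.gauge_le_iff one_pos x

theorem Ctr.gauge_pos (hK : Ctr K) {x : E n} (hx : x ≠ 0) : 0 < gauge K x :=
  (gauge_nonneg x).lt_of_ne fun h => hx ((gauge_eq_zero hK.absorbent
    (NormedSpace.isVonNBounded_of_isBounded ℝ hK.compact.isBounded)).1 h.symm)

theorem Ctr.setIntegral_smul {f : E n → ℝ} (hK : Ctr K) {r : ℝ} (hr : 0 < r) :
    ∫ x in {x | gauge K x ≤ r}, f x = r ^ (n + 1) * ∫ y in K, f (r • y) := by
  have e : {x | gauge K x ≤ r} = r • K := ext fun x => hK.gauge_le_iff hr x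
  rw [e, Measure.setIntegral_comp_smul_of_pos volume f K hr, smul_eq_mul,
    finrank_euclideanSpace_fin, mul_inv_cancel_left₀ (pow_ne_zero _ hr.ne')]

theorem Ctr.measureReal_smul (hK : Ctr K) {r : ℝ} (hr : 0 < r) :
    volume.real {x | gauge K x ≤ r} = r ^ (n + 1) * volume.real K := by
  have h := hK.setIntegral_smul (f := fun _ => (1 : ℝ)) hr
  simpa using h

/-- Layer cake: integrating over `{(x, r) | gauge K x ≤ r < 1}` in both orders. -/
theorem layer (hK : Ctr K) (w : E n → ℝ → ℝ) (hm : Measurable (Function.uncurry w)) (C : ℝ)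
    (hw : ∀ x r, 0 < r → r < 1 → gauge K x ≤ r → |w x r| ≤ C / r) :
    IntegrableOn (fun x => ∫ r in gauge K x..1, w x r) K ∧
      ∫ x in K, (∫ r in gauge K x..1, w x r) =
        ∫ r in (0:ℝ)..1, r ^ (n + 1) * ∫ y in K, w (r • y) r := by
  set S : Set (E n × ℝ) := {p | gauge K p.1 ≤ p.2 ∧ p.2 ∈ Ioo (0:ℝ) 1} with hS
  have hSm : MeasurableSet S :=
    (measurableSet_le (hK.continuous_gauge.measurable.comp measurable_fst) measurable_snd).inter
      (measurable_snd measurableSet_Ioo)
  set F := S.indicator (Function.uncurry w) with hF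
  have hFm : AEStronglyMeasurable F ((volume : Measure (E n)).prod (volume : Measure ℝ)) :=
    (hm.indicator hSm).aestronglyMeasurable
  have hpt : ∀ r x, F (x, r) = (Ioo (0:ℝ) 1).indicator
      (fun r => ({x | gauge K x ≤ r}).indicator (fun x => w x r) x) r := by
    intro r x
    by_cases hr : r ∈ Ioo (0:ℝ) 1
    · by_cases hx : gauge K x ≤ r
      · rw [hF, indicator_of_mem (show (x, r) ∈ S from ⟨hx, hr⟩), indicator_of_mem hr,
          indicator_of_mem (show x ∈ {x | gauge K x ≤ r} from hx)]
        rfl
      · rw [hF, indicator_of_notMem (show (x, r) ∉ S from fun h => hx h.1), indicator_of_mem hr,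
          indicator_of_notMem (show x ∉ {x | gauge K x ≤ r} from hx)]
    · rw [hF, indicator_of_notMem (show (x, r) ∉ S from fun h => hr h.2), indicator_of_notMem hr]
  have hcpt : ∀ r, 0 < r → IsCompact {x | gauge K x ≤ r} := by
    intro r hr
    rw [show {x | gauge K x ≤ r} = r • K from ext fun x => hK.gauge_le_iff hr x]
    exact hK.compact.smul r
  have hlev : ∀ r ∈ Ioo (0:ℝ) 1, IntegrableOn (fun x => w x r) {x | gauge K x ≤ r} := by
    intro r hr
    refine Measure.integrableOn_of_bounded (M := C / r) (hcpt r hr.1).measure_lt_top.ne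
      (hm.comp (measurable_id.prodMk measurable_const)).aestronglyMeasurable ?_
    filter_upwards [ae_restrict_mem (hcpt r hr.1).measurableSet] with x hx
    exact hw x r hr.1 hr.2 hx
  have hint : Integrable F ((volume : Measure (E n)).prod (volume : Measure ℝ)) := by
    rw [integrable_prod_iff' hFm]
    refine ⟨Eventually.of_forall fun r => ?_, ?_⟩
    · simp only [hpt]
      by_cases hr : r ∈ Ioo (0:ℝ) 1
      · simp only [indicator_of_mem hr]
        exact (hlev r hr).integrable_indicator (hcpt r hr.1).measurableSet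
      · simp [indicator_of_notMem hr]
    · have hg : IntegrableOn (fun r : ℝ => |C| * volume.real K * r ^ n) (Ioo 0 1) :=
        ((by fun_prop : Continuous fun r : ℝ => |C| * volume.real K * r ^ n).continuousOn.integrableOn_compact
          isCompact_Icc).mono_set Ioo_subset_Icc_self
      refine (hg.integrable_indicator measurableSet_Ioo).mono' hFm.norm.prod_swap.integral_prod_right'
        (Eventually.of_forall fun r => ?_)
      show ‖∫ x, ‖F (x, r)‖‖ ≤ _
      rw [Real.norm_eq_abs, abs_of_nonneg (integral_nonneg fun x => norm_nonneg _)]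
      simp only [hpt]
      by_cases hr : r ∈ Ioo (0:ℝ) 1
      · simp only [indicator_of_mem hr, norm_indicator_eq_indicator_norm]
        rw [integral_indicator (hcpt r hr.1).measurableSet]
        refine le_trans (setIntegral_mono_on (hlev r hr).norm
          (integrableOn_const (hcpt r hr.1).measure_lt_top.ne) (hcpt r hr.1).measurableSet
          fun x hx => (hw x r hr.1 hr.2 hx).trans
            ((div_le_div_iff_of_pos_right hr.1).2 (le_abs_self C))) (le_of_eq ?_)
        rw [setIntegral_const, smul_eq_mul, hK.measureReal_smul hr.1]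
        field_simp [hr.1.ne']
        ring
      · simp [indicator_of_notMem hr]
  have hx : ∀ x, ∫ r, F (x, r) = K.indicator (fun x => ∫ r in gauge K x..1, w x r) x := by
    intro x
    by_cases hxK : x ∈ K
    · have hg1 := (hK.gauge_le_one_iff x).2 hxK
      rw [indicator_of_mem hxK, intervalIntegral.integral_of_le hg1, integral_Ioc_eq_integral_Ioo,
        ← integral_indicator measurableSet_Ioo]
      refine integral_congr_ae ?_
      filter_upwards [Measure.ae_ne volume (gauge K x)] with r hne
      rw [hpt]
      by_cases hr : r ∈ Ioo (gauge K x) 1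
      · have h0 : r ∈ Ioo (0:ℝ) 1 := ⟨(gauge_nonneg x).trans_lt hr.1, hr.2⟩
        simp [indicator_of_mem hr, indicator_of_mem h0, hr.1.le]
      · rw [indicator_of_notMem hr]
        by_cases h0 : r ∈ Ioo (0:ℝ) 1
        · have : ¬ gauge K x ≤ r := fun h => hr ⟨lt_of_le_of_ne h hne.symm, h0.2⟩
          simp [indicator_of_mem h0, this]
        · simp [indicator_of_notMem h0]
    · rw [indicator_of_notMem hxK]
      refine integral_eq_zero_of_ae (Eventually.of_forall fun r => ?_)
      simp only [hpt, Pi.zero_apply]
      by_cases h0 : r ∈ Ioo (0:ℝ) 1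
      · have : ¬ gauge K x ≤ r := fun h =>
          hxK ((hK.gauge_le_one_iff x).1 (h.trans h0.2.le))
        simp [indicator_of_mem h0, this]
      · simp [indicator_of_notMem h0]
  refine ⟨?_, ?_⟩
  · have h := hint.integral_prod_left
    simp only [hx] at h
    exact (integrable_indicator_iff hK.compact.measurableSet).1 h
  · have h := integral_integral_swap (f := fun x r => F (x, r)) hint
    simp only [hx] at h
    rw [integral_indicator hK.compact.measurableSet] at h
    rw [h, intervalIntegral.integral_of_le zero_le_one, integral_Ioc_eq_integral_Ioo,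
      ← integral_indicator measurableSet_Ioo]
    refine integral_congr_ae (Eventually.of_forall fun r => ?_)
    simp only [hpt]
    by_cases hr : r ∈ Ioo (0:ℝ) 1
    · simp only [indicator_of_mem hr]
      rw [integral_indicator (hcpt r hr.1).measurableSet, hK.setIntegral_smul hr.1]
    · simp [indicator_of_notMem hr]

/-- Second moment of the gauge. -/
theorem integral_gauge_sq (hK : Ctr K) :
    ∫ x in K, gauge K x ^ 2 = ((n : ℝ) + 1) / (n + 3) * volume.real K := by
  have h := (layer hK (fun _ r => 2 * r) (by fun_prop) 2 fun x r h0 h1 _ => by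
    rw [abs_of_pos (by positivity), le_div_iff₀ h0]
    nlinarith).2
  have e1 : ∀ x, (∫ r in gauge K x..1, 2 * r) = 1 - gauge K x ^ 2 := fun x => by
    rw [intervalIntegral.integral_const_mul, integral_id]
    ring
  have e2 : ∀ r : ℝ, r ^ (n + 1) * (∫ _ in K, 2 * r) = 2 * volume.real K * r ^ (n + 2) := fun r => by
    rw [setIntegral_const, smul_eq_mul]
    ring
  simp only [e1, e2, intervalIntegral.integral_const_mul, integral_pow] at h
  rw [integral_sub (f := fun _ => (1:ℝ)) (g := fun x => gauge K x ^ 2)
    (integrableOn_const hK.compact.measure_lt_top.ne)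
    (((hK.continuous_gauge.pow 2).continuousOn.integrableOn_compact hK.compact)),
    setIntegral_const, smul_eq_mul, mul_one] at h
  have e3 : ((n + 2 : ℕ) : ℝ) + 1 = n + 3 := by push_cast; ring
  rw [e3] at h
  have h3 : (0 : ℝ) < n + 3 := by positivity
  norm_num at h
  field_simp at h ⊢
  linarith

end

end Vale.Agent.P237.Gen.Contact
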