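import Vale.Agent.P237.Gen.Contact.Basic

/-!
Sections of a convex body in dimension `n + 1` in the coordinates of an orthonormal basis.
-/

namespace Vale.Agent.P237.Gen.Contact

open MeasureTheory Set Metric Filter
open scoped RealInnerProductSpace Pointwise
open Vale.P254 (sl slVol integral_slice)

noncomputable section

variable {n : ℕ}

theorem continuous_coords (b : OrthonormalBasis (Fin (n + 1)) ℝ (E n)) : Continuous (coords b) :=
  b.repr.symm.continuous.comp (PiLp.continuous_toLp 2 _)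

theorem repr_coords (b : OrthonormalBasis (Fin (n + 1)) ℝ (E n)) (x : Fin (n + 1) → ℝ) (i : Fin (n + 1)) :
    ⟪b i, coords b x⟫ = x i := by
  rw [← b.repr_apply_apply, coords, LinearIsometryEquiv.apply_symm_apply]

theorem norm_coords_sq (b : OrthonormalBasis (Fin (n + 1)) ℝ (E n)) (x : Fin (n + 1) → ℝ) :
    ‖coords b x‖ ^ 2 = ∑ i, x i ^ 2 := by
  rw [coords, LinearIsometryEquiv.norm_map, EuclideanSpace.norm_sq_eq]
  simp [sq_abs]

theorem coords_combo (b : OrthonormalBasis (Fin (n + 1)) ℝ (E n)) (x y : Fin (n + 1) → ℝ) (p q : ℝ) :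
    coords b (p • x + q • y) = p • coords b x + q • coords b y := by
  simp [coords, WithLp.toLp_add, WithLp.toLp_smul]

theorem coords_neg (b : OrthonormalBasis (Fin (n + 1)) ℝ (E n)) (x : Fin (n + 1) → ℝ) :
    coords b (-x) = -coords b x := by
  simp [coords]

theorem measurePreserving_coords (b : OrthonormalBasis (Fin (n + 1)) ℝ (E n)) :
    MeasurePreserving (coords b) volume volume :=
  b.measurePreserving_repr_symm.comp (PiLp.volume_preserving_toLp (Fin (n + 1)))

theorem measurableEmbedding_coords (b : OrthonormalBasis (Fin (n + 1)) ℝ (E n)) :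
    MeasurableEmbedding (coords b) :=
  b.repr.symm.toHomeomorph.measurableEmbedding.comp
    (MeasurableEquiv.toLp 2 (Fin (n + 1) → ℝ)).measurableEmbedding

theorem isCompact_pre {K : Set (E n)} (hK : IsCompact K) (b : OrthonormalBasis (Fin (n + 1)) ℝ (E n)) :
    IsCompact (coords b ⁻¹' K) := by
  refine (hK.image (f := fun z i => ⟪b i, z⟫) (by fun_prop)).of_isClosed_subset
    (hK.isClosed.preimage (continuous_coords b)) fun x hx => ⟨_, hx, ?_⟩
  funext i
  exact repr_coords b x i

/-- Fubini for a function of the height. -/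
theorem integral_height {K : Set (E n)} (hK : IsCompact K) (b : OrthonormalBasis (Fin (n + 1)) ℝ (E n))
    {φ : ℝ → ℝ} (hφ : Continuous φ) :
    Integrable (fun t => φ t * slArea K b t) ∧
      ∫ z in K, φ ⟪b 0, z⟫ = ∫ t, φ t * slArea K b t := by
  have h := integral_slice (isCompact_pre hK b) (f := fun x => φ (x 0))
    (hφ.comp (continuous_apply 0))
  have e : ∀ t, (∫ y in sl (coords b ⁻¹' K) t, φ ((Fin.cons t y : Fin (n + 1) → ℝ) 0))
      = φ t * slArea K b t := fun t => by
    simp [slArea, slVol, measureReal_def, mul_comm]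
  simp only [e] at h
  refine ⟨h.1, ?_⟩
  rw [← h.2, ← (measurePreserving_coords b).setIntegral_preimage_emb
    (measurableEmbedding_coords b) (fun z => φ ⟪b 0, z⟫) K]
  simp only [repr_coords]

theorem isClosed_sl {K : Set (E n)} (hK : IsCompact K) (b : OrthonormalBasis (Fin (n + 1)) ℝ (E n)) (t : ℝ) :
    IsClosed (sl (coords b ⁻¹' K) t) :=
  (isCompact_pre hK b).isClosed.preimage (Vale.P254.continuous_cons t)

theorem isCompact_sl {K : Set (E n)} (hK : IsCompact K) (b : OrthonormalBasis (Fin (n + 1)) ℝ (E n)) (t : ℝ) :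
    IsCompact (sl (coords b ⁻¹' K) t) := by
  refine ((isCompact_pre hK b).image (f := fun x i => x (Fin.succ i)) (by fun_prop)).of_isClosed_subset
    (isClosed_sl hK b t) fun y hy => ⟨_, hy, by simp⟩

theorem convex_sl {K : Set (E n)} (hc : Convex ℝ K) (b : OrthonormalBasis (Fin (n + 1)) ℝ (E n)) (t : ℝ) :
    Convex ℝ (sl (coords b ⁻¹' K) t) := by
  intro x hx y hy p q hp hq hpq
  have := hc hx hy hp hq hpq
  rw [← coords_combo] at this
  show coords b (Fin.cons t (p • x + q • y)) ∈ K
  convert this using 2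
  funext i
  refine Fin.cases ?_ (fun j => ?_) i
  · simp [← add_mul, hpq]
  · simp

theorem slArea_nonneg (K : Set (E n)) (b : OrthonormalBasis (Fin (n + 1)) ℝ (E n)) (t : ℝ) :
    0 ≤ slArea K b t := measureReal_nonneg

theorem slArea_neg {K : Set (E n)} (hs : ∀ x ∈ K, -x ∈ K) (b : OrthonormalBasis (Fin (n + 1)) ℝ (E n))
    (t : ℝ) : slArea K b (-t) = slArea K b t := by
  have key : ∀ s, sl (coords b ⁻¹' K) (-s) = Neg.neg ⁻¹' sl (coords b ⁻¹' K) s := by
    intro s
    have e : ∀ y : Fin n → ℝ, coords b (Fin.cons (-s) y) = -coords b (Fin.cons s (-y)) := fun y => by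
      rw [← coords_neg]
      congr 1
      funext i
      refine Fin.cases ?_ (fun j => ?_) i <;> simp
    ext y
    show coords b (Fin.cons (-s) y) ∈ K ↔ coords b (Fin.cons s (-y)) ∈ K
    rw [e]
    exact ⟨fun h => by simpa using hs _ h, hs _⟩
  rw [slArea, slArea, slVol, slVol, key, measureReal_def, measureReal_def,
    Set.neg_preimage, Measure.measure_neg]

theorem slArea_eq_zero {K : Set (E n)} {b : OrthonormalBasis (Fin (n + 1)) ℝ (E n)}
    (hb : ∀ x ∈ K, |⟪b 0, x⟫| ≤ 1) {t : ℝ} (ht : 1 < |t|) : slArea K b t = 0 := by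
  have : sl (coords b ⁻¹' K) t = ∅ := eq_empty_of_forall_notMem fun y hy => by
    have h := hb _ hy
    rw [repr_coords] at h
    simp at h
    linarith
  simp [slArea, slVol, this]

theorem mem_sl_of_sq_le {K : Set (E n)} (hball : closedBall 0 1 ⊆ K)
    (b : OrthonormalBasis (Fin (n + 1)) ℝ (E n)) {t : ℝ} {y : Fin n → ℝ}
    (h : t ^ 2 + ∑ i, y i ^ 2 ≤ 1) : y ∈ sl (coords b ⁻¹' K) t := by
  refine hball (mem_closedBall_zero_iff.2 ?_)
  rw [← sq_le_one_iff₀ (norm_nonneg _), norm_coords_sq, Fin.sum_univ_succ]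
  simpa using h

theorem mem_ball_sl {K : Set (E n)} (hball : closedBall 0 1 ⊆ K)
    (b : OrthonormalBasis (Fin (n + 1)) ℝ (E n)) {t : ℝ} {y : Fin n → ℝ}
    (h : WithLp.toLp 2 y ∈ closedBall (0 : EuclideanSpace ℝ (Fin n)) (semi t))
    (ht : t ∈ Icc (-1 : ℝ) 1) : y ∈ sl (coords b ⁻¹' K) t := by
  refine mem_sl_of_sq_le hball b ?_
  rw [mem_closedBall_zero_iff, semi, ← sq_le_sq₀ (norm_nonneg _) (Real.sqrt_nonneg _),
    Real.sq_sqrt (by nlinarith [ht.1, ht.2]), EuclideanSpace.norm_sq_eq] at h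
  simp [sq_abs] at h
  linarith

open Every (kappa)

theorem kappa_mul_semi_le {K : Set (E n)} (hK : IsCompact K) (hball : closedBall 0 1 ⊆ K)
    (b : OrthonormalBasis (Fin (n + 1)) ℝ (E n)) {t : ℝ} (ht : t ∈ Icc (-1 : ℝ) 1) :
    kappa n * semi t ^ n ≤ slArea K b t := by
  have h : volume.real (closedBall (0 : EuclideanSpace ℝ (Fin n)) (semi t)) = kappa n * semi t ^ n := by
    rw [measureReal_def, semi,
      Measure.addHaar_closedBall volume (0 : EuclideanSpace ℝ (Fin n)) (Real.sqrt_nonneg _),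
      ENNReal.toReal_mul,
      ENNReal.toReal_ofReal (pow_nonneg (Real.sqrt_nonneg _) _), finrank_euclideanSpace_fin, kappa,
      measureReal_def, mul_comm]
  rw [← h, measureReal_def, ← (PiLp.volume_preserving_toLp (Fin n)).measure_preimage
    measurableSet_closedBall.nullMeasurableSet, ← measureReal_def]
  exact measureReal_mono (fun y hy => mem_ball_sl hball b hy ht)
    (isCompact_sl hK b t).measure_lt_top.ne

/-- The radius of the ball of the same volume as the section. -/
def root (K : Set (E n)) (b : OrthonormalBasis (Fin (n + 1)) ℝ (E n)) (t : ℝ) : ℝ :=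
  slArea K b t ^ ((n : ℝ)⁻¹)

theorem root_nonneg (K : Set (E n)) (b : OrthonormalBasis (Fin (n + 1)) ℝ (E n)) (t : ℝ) :
    0 ≤ root K b t := Real.rpow_nonneg (slArea_nonneg K b t) _

theorem root_pow (hn : n ≠ 0) (K : Set (E n)) (b : OrthonormalBasis (Fin (n + 1)) ℝ (E n))
    (t : ℝ) : root K b t ^ n = slArea K b t :=
  Real.rpow_inv_natCast_pow (slArea_nonneg K b t) hn

/-- Brunn: the root of the volume of a section is concave on `[-1, 1]`. -/
theorem concaveOn_root (hn : n ≠ 0) {K : Set (E n)} (hK : IsCompact K) (hc : Convex ℝ K)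
    (hball : closedBall 0 1 ⊆ K) (b : OrthonormalBasis (Fin (n + 1)) ℝ (E n)) :
    ConcaveOn ℝ (Icc (-1 : ℝ) 1) (root K b) := by
  set S := fun t => sl (coords b ⁻¹' K) t with hS
  have h0 : ∀ t ∈ Icc (-1 : ℝ) 1, (0 : Fin n → ℝ) ∈ S t := fun t ht =>
    mem_sl_of_sq_le hball b (by simp; exact abs_le.2 ht)
  have hmix : ∀ t s p q : ℝ, 0 ≤ p → 0 ≤ q → p + q = 1 → ∀ x ∈ S t, ∀ y ∈ S s,
      p • x + q • y ∈ S (p * t + q * s) := by
    intro t s p q hp hq hpq x hx y hy
    have := hc hx hy hp hq hpq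
    rw [← coords_combo] at this
    show coords b (Fin.cons _ _) ∈ K
    convert this using 2
    funext i
    refine Fin.cases ?_ (fun j => ?_) i <;> simp
  refine ⟨convex_Icc _ _, fun t ht s hs p q hp hq hpq => ?_⟩
  simp only [smul_eq_mul]
  have hr := convex_Icc (-1 : ℝ) 1 ht hs hp hq hpq
  simp only [smul_eq_mul] at hr
  have hm := hmix t s p q hp hq hpq
  have hle : ∀ a : ℝ, 0 ≤ a → a ^ n ≤ slArea K b (p * t + q * s) →
      a ≤ root K b (p * t + q * s) := fun a ha h =>
    (pow_le_pow_iff_left₀ ha (root_nonneg _ _ _) hn).1 (by rw [root_pow hn]; exact h)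
  have hscale : ∀ (z : ℝ), 0 ≤ z → ∀ u : ℝ, (∀ x ∈ S u, z • x ∈ S (p * t + q * s)) →
      z * root K b u ≤ root K b (p * t + q * s) := by
    intro z hz u hu
    refine hle _ (mul_nonneg hz (root_nonneg _ _ _)) ?_
    rw [mul_pow, root_pow hn]
    have hsub : z • S u ⊆ S (p * t + q * s) := by
      rintro _ ⟨x, hx, rfl⟩
      exact hu x hx
    have := measureReal_mono (μ := volume) hsub (isCompact_sl hK b _).measure_lt_top.ne
    rwa [measureReal_def, Measure.addHaar_smul_of_nonneg volume hz, ENNReal.toReal_mul,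
      ENNReal.toReal_ofReal (pow_nonneg hz _), Module.finrank_pi, Fintype.card_fin] at this
  rcases (root_nonneg K b t).eq_or_lt with hct | hct
  · rw [← hct, mul_zero, zero_add]
    exact hscale q hq s fun y hy => by simpa using hm 0 (h0 t ht) y hy
  rcases (root_nonneg K b s).eq_or_lt with hcs | hcs
  · rw [← hcs, mul_zero, add_zero]
    exact hscale p hp t fun x hx => by simpa using hm x hx 0 (h0 s hs)
  refine hle _ (add_nonneg (mul_nonneg hp hct.le) (mul_nonneg hq hcs.le)) ?_
  exact Vale.P254.brunn_minkowski (isCompact_sl hK b t) (isCompact_sl hK b s)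
    (convex_sl hc b t) (convex_sl hc b s) (h0 t ht) (h0 s hs) (isCompact_sl hK b _)
    hct hcs hp hq (by linarith) (root_pow hn K b t).le (root_pow hn K b s).le
    fun x hx y hy => hm x hx y hy

end

end Vale.Agent.P237.Gen.Contact
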