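import Vale.Agent.P237.Gen.Contact.Gradient
import Vale.Agent.P237.Gen.Contact.Slices
import Vale.Agent.P237.Gen.Contact.Kappa

/-!
In John position some contact direction satisfies both averaged constraints: second moment at
least that of the ball, and squared derivative of the gauge at most one.
-/

namespace Vale.Agent.P237.Gen.Contact

open MeasureTheory Set Metric Filter
open scoped RealInnerProductSpace
open Every (kappa)

noncomputable section

variable {n : ℕ}

/-- The profile of `K` in the direction of the first vector of `b`. -/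
def prof (K : Set (E n)) (b : OrthonormalBasis (Fin (n + 1)) ℝ (E n)) (t : ℝ) : ℝ :=
  root K b t / kappa n ^ ((n : ℝ)⁻¹)

theorem kappa_root_pos (n : ℕ) : 0 < kappa n ^ ((n : ℝ)⁻¹) :=
  Real.rpow_pos_of_pos (kappa_pos n) _

theorem slArea_eq (hn : n ≠ 0) (K : Set (E n)) (b : OrthonormalBasis (Fin (n + 1)) ℝ (E n))
    (t : ℝ) : slArea K b t = kappa n * prof K b t ^ n := by
  rw [prof, div_pow, root_pow hn, Real.rpow_inv_natCast_pow (kappa_pos n).le hn,
    mul_div_cancel₀ _ (kappa_pos n).ne']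

theorem prof_nonneg (K : Set (E n)) (b : OrthonormalBasis (Fin (n + 1)) ℝ (E n)) (t : ℝ) :
    0 ≤ prof K b t :=
  div_nonneg (root_nonneg K b t) (kappa_root_pos n).le

theorem slArea_rpow (hn : n ≠ 0) (K : Set (E n)) (b : OrthonormalBasis (Fin (n + 1)) ℝ (E n))
    (t : ℝ) : slArea K b t ^ (((n : ℝ) - 1) / n) =
      kappa n ^ (((n : ℝ) - 1) / n) * prof K b t ^ (n - 1) := by
  rw [slArea_eq hn, Real.mul_rpow (kappa_pos n).le (pow_nonneg (prof_nonneg K b t) _)]
  congr 1
  rw [← Real.rpow_natCast, ← Real.rpow_mul (prof_nonneg K b t), mul_div_cancel₀ _ (Nat.cast_ne_zero.2 hn),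
    ← Nat.cast_one, ← Nat.cast_sub (Nat.one_le_iff_ne_zero.2 hn), Real.rpow_natCast]

theorem integral_even {F : ℝ → ℝ} (heven : ∀ t, F (-t) = F t) (hout : ∀ t, 1 < |t| → F t = 0) :
    ∫ t, F t = 2 * ∫ t in (0:ℝ)..1, F t := by
  have h : (fun t => F t) = fun t => F |t| := by
    funext t
    rcases abs_choice t with h | h <;> rw [h]
    rw [heven]
  rw [h, integral_comp_abs, intervalIntegral.integral_of_le zero_le_one]
  congr 1
  rw [setIntegral_eq_of_subset_of_forall_sdiff_eq_zero measurableSet_Ioi Ioc_subset_Ioi_self]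
  · refine setIntegral_congr_fun measurableSet_Ioc fun t ht => ?_
    rw [abs_of_pos ht.1]
  · intro t ht
    apply hout
    have : ¬ t ≤ 1 := fun h' => ht.2 ⟨ht.1, h'⟩
    rw [abs_of_pos ht.1]
    linarith

theorem prof_adm (hn : n ≠ 0) {K : Set (E n)} (hJ : InJohn K)
    (b : OrthonormalBasis (Fin (n + 1)) ℝ (E n)) : Adm (prof K b) := by
  have hconc : ConcaveOn ℝ (Icc (-1 : ℝ) 1) (prof K b) := by
    have h := (concaveOn_root hn hJ.compact hJ.convex hJ.ball b).smul
      (inv_nonneg.2 (kappa_root_pos n).le)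
    have e : prof K b = fun t => (kappa n ^ ((n : ℝ)⁻¹))⁻¹ • root K b t := by
      funext t
      rw [prof, smul_eq_mul, div_eq_inv_mul]
    rw [e]
    exact h
  have heven : ∀ t, prof K b (-t) = prof K b t := fun t => by
    rw [prof, prof, root, root, slArea_neg hJ.symm b]
  refine ⟨hconc.subset (Icc_subset_Icc (by norm_num) le_rfl) (convex_Icc _ _), ?_, ?_,
    ((hconc.subset Ioo_subset_Icc_self (convex_Ioo _ _)).continuousOn isOpen_Ioo).mono
      fun t ht => ⟨by linarith [ht.1], ht.2⟩⟩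
  · intro s hs t ht hst
    rcases hst.eq_or_lt with rfl | hlt
    · exact le_rfl
    have htpos : 0 < t := hs.1.trans_lt hlt
    have h1 : s / t ≤ 1 := (div_le_one htpos).2 hst
    have h0 : 0 ≤ s / t := div_nonneg hs.1 htpos.le
    have := hconc.2 (show t ∈ Icc (-1 : ℝ) 1 from ⟨by linarith, ht.2⟩)
      (show -t ∈ Icc (-1 : ℝ) 1 from ⟨by linarith [ht.2], by linarith⟩)
      (show 0 ≤ (1 + s / t) / 2 by linarith) (show 0 ≤ (1 - s / t) / 2 by linarith) (by ring)
    simp only [smul_eq_mul, heven t] at this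
    have e : (1 + s / t) / 2 * t + (1 - s / t) / 2 * -t = s := by field_simp; ring
    rw [e] at this
    linarith
  · intro t ht
    refine (pow_le_pow_iff_left₀ (Real.sqrt_nonneg _) (prof_nonneg K b t) hn).1
      (le_of_mul_le_mul_left ?_ (kappa_pos n))
    rw [← slArea_eq hn]
    exact kappa_mul_semi_le hJ.compact hJ.ball b ⟨by linarith [ht.1], ht.2⟩

/-- Integrals over `K` of even functions of the height, through the profile. -/
theorem integral_height_prof (hn : n ≠ 0) {K : Set (E n)} (hJ : InJohn K)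
    {b : OrthonormalBasis (Fin (n + 1)) ℝ (E n)} (hb : ∀ x ∈ K, |⟪b 0, x⟫| ≤ 1) {φ : ℝ → ℝ}
    (hφ : Continuous φ) (he : ∀ t, φ (-t) = φ t) :
    ∫ z in K, φ ⟪b 0, z⟫ = 2 * kappa n * ∫ t in (0:ℝ)..1, φ t * prof K b t ^ n := by
  rw [(integral_height hJ.compact b hφ).2, integral_even (fun t => by rw [he, slArea_neg hJ.symm b])
    fun t ht => by rw [slArea_eq_zero hb ht, mul_zero]]
  simp only [slArea_eq hn, mul_left_comm _ (kappa n), intervalIntegral.integral_const_mul]
  ring

theorem volume_prof (hn : n ≠ 0) {K : Set (E n)} (hJ : InJohn K)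
    {b : OrthonormalBasis (Fin (n + 1)) ℝ (E n)} (hb : ∀ x ∈ K, |⟪b 0, x⟫| ≤ 1) :
    volume.real K = 2 * kappa n * pw n (prof K b) := by
  simpa [pw] using integral_height_prof hn hJ hb (φ := fun _ => (1:ℝ)) continuous_const fun _ => rfl

theorem integral_rpow_prof (hn : 2 ≤ n) {K : Set (E n)} (hJ : InJohn K)
    {b : OrthonormalBasis (Fin (n + 1)) ℝ (E n)} (hb : ∀ x ∈ K, |⟪b 0, x⟫| ≤ 1) :
    (∫ t, slArea K b t ^ (((n : ℝ) - 1) / n)) =
      2 * kappa n ^ (((n : ℝ) - 1) / n) * pw (n - 1) (prof K b) := by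
  have hr : ((n : ℝ) - 1) / n ≠ 0 := by
    have : (2 : ℝ) ≤ n := by exact_mod_cast hn
    refine div_ne_zero (by linarith) (by linarith)
  rw [integral_even (fun t => by rw [slArea_neg hJ.symm b])
    fun t ht => by rw [slArea_eq_zero hb ht, Real.zero_rpow hr]]
  simp only [slArea_rpow (show n ≠ 0 by omega), intervalIntegral.integral_const_mul, pw]
  ring

theorem exists_basis_first {u : E n} (hu : ‖u‖ = 1) :
    ∃ b : OrthonormalBasis (Fin (n + 1)) ℝ (E n), b 0 = u := by
  obtain ⟨b, hb⟩ := Orthonormal.exists_orthonormalBasis_extension_of_card_eq (ι := Fin (n + 1))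
    (𝕜 := ℝ) (E := E n) (by simp) (v := fun _ => u) (s := {0})
    ⟨fun i => hu, fun i j hij => absurd (Subsingleton.elim i j) hij⟩
  exact ⟨b, hb 0 rfl⟩

/-- The centred ball has the least second moment among sets of its volume. -/
theorem moment_ball_le {K : Set (E n)} (hK : IsCompact K) {R : ℝ} (hR : 0 ≤ R)
    (hvol : volume.real K = volume.real (closedBall (0 : E n) R)) :
    ∫ z in closedBall (0 : E n) R, ‖z‖ ^ 2 ≤ ∫ z in K, ‖z‖ ^ 2 := by
  set B := closedBall (0 : E n) R with hB
  have hBc : IsCompact B := isCompact_closedBall _ _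
  have hc : Continuous fun z : E n => ‖z‖ ^ 2 - R ^ 2 := by fun_prop
  have hiK := (hc.continuousOn.integrableOn_compact (μ := volume) hK).integrable_indicator
    hK.measurableSet
  have hiB := (hc.continuousOn.integrableOn_compact (μ := volume) hBc).integrable_indicator
    hBc.measurableSet
  have key : ∫ z in B, (‖z‖ ^ 2 - R ^ 2) ≤ ∫ z in K, (‖z‖ ^ 2 - R ^ 2) := by
    rw [← integral_indicator hBc.measurableSet, ← integral_indicator hK.measurableSet]
    refine integral_mono hiB hiK fun z => ?_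
    by_cases hzB : z ∈ B
    · have hle : ‖z‖ ^ 2 - R ^ 2 ≤ 0 :=
        sub_nonpos.2 (pow_le_pow_left₀ (norm_nonneg z) (mem_closedBall_zero_iff.1 hzB) 2)
      rw [indicator_of_mem hzB]
      by_cases hzK : z ∈ K
      · rw [indicator_of_mem hzK]
      · rw [indicator_of_notMem hzK]; exact hle
    · have hge : 0 ≤ ‖z‖ ^ 2 - R ^ 2 := by
        have : R < ‖z‖ := by simpa [hB, mem_closedBall_zero_iff] using hzB
        nlinarith
      rw [indicator_of_notMem hzB]
      by_cases hzK : z ∈ K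
      · rw [indicator_of_mem hzK]; exact hge
      · rw [indicator_of_notMem hzK]
  have hn : Continuous fun z : E n => ‖z‖ ^ 2 := by fun_prop
  rw [integral_sub (hn.continuousOn.integrableOn_compact hBc)
      (integrableOn_const hBc.measure_lt_top.ne),
    integral_sub (hn.continuousOn.integrableOn_compact hK)
      (integrableOn_const hK.measure_lt_top.ne),
    setIntegral_const, setIntegral_const, hvol] at key
  linarith

/-- The second moment is at least that of the ball of the same volume. -/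
theorem moment_ge {K : Set (E n)} (hK : Ctr K) :
    ((n : ℝ) + 1) / (n + 3) * (volume.real K / kappa (n + 1)) ^ (2 / ((n : ℝ) + 1)) *
      volume.real K ≤ ∫ z in K, ‖z‖ ^ 2 := by
  have hk := kappa_pos (n + 1)
  have hball : ∀ {R : ℝ}, 0 ≤ R →
      volume.real (closedBall (0 : E n) R) = R ^ (n + 1) * kappa (n + 1) := fun {R} hR => by
    rw [measureReal_def, Measure.addHaar_closedBall volume (0 : E n) hR, ENNReal.toReal_mul,
      ENNReal.toReal_ofReal (pow_nonneg hR _), finrank_euclideanSpace_fin, kappa, measureReal_def]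
  set q := volume.real K / kappa (n + 1) with hq
  have hq1 : 1 ≤ q := by
    rw [hq, one_le_div hk]
    have h := measureReal_mono (μ := volume) hK.ball hK.compact.measure_lt_top.ne
    rwa [hball zero_le_one, one_pow, one_mul] at h
  set R := q ^ (((n : ℝ) + 1)⁻¹) with hRdef
  have hR1 : 1 ≤ R := Real.one_le_rpow hq1 (by positivity)
  have hRN : R ^ (n + 1) = q := by
    rw [hRdef, show ((n : ℝ) + 1) = ((n + 1 : ℕ) : ℝ) by push_cast; ring]
    exact Real.rpow_inv_natCast_pow (zero_le_one.trans hq1) (Nat.succ_ne_zero n)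
  have hR2 : R ^ 2 = q ^ (2 / ((n : ℝ) + 1)) := by
    rw [hRdef, ← Real.rpow_natCast _ 2, ← Real.rpow_mul (zero_le_one.trans hq1)]
    congr 1
    push_cast
    ring
  have hB : Ctr (closedBall (0 : E n) R) :=
    ⟨isCompact_closedBall _ _, convex_closedBall _ _, closedBall_subset_closedBall hR1⟩
  have hvol : volume.real K = volume.real (closedBall (0 : E n) R) := by
    rw [hball (zero_le_one.trans hR1), hRN, hq, div_mul_cancel₀ _ hk.ne']
  have hg := integral_gauge_sq hB
  have e : ∀ x : E n, gauge (closedBall (0 : E n) R) x ^ 2 = ‖x‖ ^ 2 / R ^ 2 := fun x => by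
    rw [gauge_closedBall (zero_le_one.trans hR1), div_pow]
  simp only [e, integral_div, ← hvol] at hg
  refine le_trans (le_of_eq ?_) (moment_ball_le hK.compact (zero_le_one.trans hR1) hvol)
  rw [div_eq_iff (by positivity)] at hg
  rw [hg, hR2]
  ring

theorem pw_pos {f : ℝ → ℝ} (hn : n ≠ 0) {K : Set (E n)} (hJ : InJohn K)
    {b : OrthonormalBasis (Fin (n + 1)) ℝ (E n)} (hb : ∀ x ∈ K, |⟪b 0, x⟫| ≤ 1)
    (hf : f = prof K b) : 0 < pw n f := by
  subst hf
  have h := volume_prof hn hJ hb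
  have hV : 0 < volume.real K := by
    refine ENNReal.toReal_pos ?_ hJ.compact.measure_lt_top.ne
    exact (lt_of_lt_of_le (measure_closedBall_pos volume (0 : E n) one_pos)
      (measure_mono hJ.ball)).ne'
  have := kappa_pos n
  by_contra hc
  push Not at hc
  nlinarith

/-- Some contact direction whose profile satisfies a combination of the averaged constraints, for
every test function at once. `extra` is any further quantity whose contact average is nonnegative. -/
theorem exists_contact_profile (hn : n ≠ 0) {α β : ℝ} (hα : 0 ≤ α) (hβ : 0 ≤ β) {K : Set (E n)}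
    (hJ : InJohn K) (extra : OrthonormalBasis (Fin (n + 1)) ℝ (E n) → ℝ)
    (hextra : ∀ (m : ℕ) (c : Fin m → ℝ) (b : Fin m → OrthonormalBasis (Fin (n + 1)) ℝ (E n)),
      (∀ i, 0 ≤ c i) → ∑ i, c i = (n : ℝ) + 1 → (∀ i, ∀ x ∈ K, |⟪b i 0, x⟫| ≤ 1) →
      (∀ v, ∑ i, (c i * ⟪b i 0, v⟫) • b i 0 = v) → 0 ≤ ∑ i, c i * extra (b i)) :
    ∃ b : OrthonormalBasis (Fin (n + 1)) ℝ (E n), (∀ x ∈ K, |⟪b 0, x⟫| ≤ 1) ∧
      ∀ ψ : ℝ → ℝ, ContDiff ℝ 2 ψ → (∀ t, ψ (-t) = -ψ t) →
        0 ≤ extra b + α * excess n (prof K b) +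
          β * (1 - testQ n ψ (prof K b) / pw n (prof K b)) := by
  obtain ⟨m, c, u, hc0, hcsum, hu1, huK, hdec⟩ := hJ.contacts
  choose b hb using fun i => exists_basis_first (hu1 i)
  have hbK : ∀ i, ∀ x ∈ K, |⟪b i 0, x⟫| ≤ 1 := fun i => by rw [hb]; exact huK i
  have hCtr : Ctr K := hJ.toCtr
  set V := volume.real K with hVdef
  have hV : 0 < V := by
    refine ENNReal.toReal_pos ?_ hJ.compact.measure_lt_top.ne
    exact (lt_of_lt_of_le (measure_closedBall_pos volume (0 : E n) one_pos)
      (measure_mono hJ.ball)).ne'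
  have hk := kappa_pos n
  set ρ := (V / kappa (n + 1)) ^ (2 / ((n : ℝ) + 1)) with hρ
  have hρ0 : 0 < ρ := Real.rpow_pos_of_pos (div_pos hV (kappa_pos _)) _
  set D : Fin m → ℝ := fun i => ∫ z in K, dg K (u i) z ^ 2 with hD
  set M : Fin m → ℝ := fun i => ∫ z in K, ⟪u i, z⟫ ^ 2 with hM
  set S : Fin m → ℝ := fun i =>
    α * ((((n : ℝ) + 3) * M i / (V * ρ) - 1) / 2) + β * (1 - ((n : ℝ) + 1) * D i / V) +
      extra (b i) with hS
  -- the two averaged constraints
  have hnorm : ∀ z : E n, ‖z‖ ^ 2 = ∑ i, c i * ⟪u i, z⟫ ^ 2 := fun z => by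
    have h : ⟪∑ i, (c i * ⟪u i, z⟫) • u i, z⟫ = ‖z‖ ^ 2 := by
      rw [hdec z, real_inner_self_eq_norm_sq]
    rw [← h]
    simp only [sum_inner, real_inner_smul_left]
    exact Finset.sum_congr rfl fun i _ => by ring
  have hMsum : ((n : ℝ) + 1) / (n + 3) * ρ * V ≤ ∑ i, c i * M i := by
    have h := moment_ge hCtr
    simp only [hnorm] at h
    rw [integral_finsetSum _ fun i _ =>
      (by fun_prop : Continuous fun z : E n => c i * ⟪u i, z⟫ ^ 2).continuousOn.integrableOn_compact
        hJ.compact] at h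
    simpa only [hM, integral_const_mul] using h
  have hDi : ∀ i, IntegrableOn (fun z => dg K (u i) z ^ 2) K := fun i =>
    Measure.integrableOn_of_bounded (M := 1) hJ.compact.measure_lt_top.ne
      ((measurable_dg K (u i)).pow_const 2).aestronglyMeasurable
      (Eventually.of_forall fun x => by
        rw [Real.norm_eq_abs, abs_pow, sq_le_one_iff_abs_le_one, abs_abs]
        exact abs_dg_le hCtr (hu1 i) x)
  have hDsum : ∑ i, c i * D i ≤ V := by
    have h : ∫ z in K, ∑ i, c i * dg K (u i) z ^ 2 ≤ ∫ z in K, (1:ℝ) :=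
      integral_mono (integrable_finsetSum _ fun i _ => (hDi i).const_mul (c i))
        (integrableOn_const hJ.compact.measure_lt_top.ne) fun z => sum_dg_sq_le hCtr c u hdec z
    rw [integral_finsetSum _ fun i _ => (hDi i).const_mul (c i), setIntegral_const] at h
    simpa only [hD, hVdef, integral_const_mul, smul_eq_mul, mul_one] using h
  have hSsum : 0 ≤ ∑ i, c i * S i := by
    have e : ∑ i, c i * S i = α * (((n : ℝ) + 3) / (2 * (V * ρ)) * (∑ i, c i * M i) -
        (∑ i, c i) / 2) + β * (∑ i, c i) - β * ((n : ℝ) + 1) / V * (∑ i, c i * D i) +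
          ∑ i, c i * extra (b i) := by
      simp only [Finset.mul_sum, Finset.sum_div, ← Finset.sum_sub_distrib, ← Finset.sum_add_distrib]
      refine Finset.sum_congr rfl fun i _ => ?_
      simp only [hS]
      field_simp
      ring
    have h3 : 0 ≤ ∑ i, c i * extra (b i) := hextra m c b hc0 hcsum hbK fun v => by
      simp only [hb]
      exact hdec v
    rw [e, hcsum]
    have h1 : ((n : ℝ) + 1) / 2 ≤ ((n : ℝ) + 3) / (2 * (V * ρ)) * (∑ i, c i * M i) := by
      refine le_trans (le_of_eq ?_) (mul_le_mul_of_nonneg_left hMsum (by positivity))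
      field_simp
    have h2 : β * ((n : ℝ) + 1) / V * (∑ i, c i * D i) ≤ β * ((n : ℝ) + 1) := by
      refine le_trans (mul_le_mul_of_nonneg_left hDsum (by positivity)) (le_of_eq ?_)
      field_simp
    have h4 := mul_nonneg hα (sub_nonneg.2 h1)
    linarith
  obtain ⟨i, hi⟩ : ∃ i, 0 ≤ S i := by
    by_contra hne
    push Not at hne
    have : ∑ i, c i * S i < 0 := by
      have hpos : ∃ i, 0 < c i := by
        by_contra h
        push Not at h
        have : ∑ i, c i ≤ 0 := Finset.sum_nonpos fun i _ => h i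
        linarith [hcsum, (n.cast_nonneg : (0:ℝ) ≤ n)]
      obtain ⟨i, hci⟩ := hpos
      exact Finset.sum_neg' (fun j _ => mul_nonpos_of_nonneg_of_nonpos (hc0 j) (hne j).le)
        ⟨i, Finset.mem_univ i, mul_neg_of_pos_of_neg hci (hne i)⟩
    linarith
  refine ⟨b i, hbK i, fun ψ hψ hodd => hi.trans ?_⟩
  set f := prof K (b i) with hf
  have hW : 0 < pw n f := pw_pos hn hJ (hbK i) hf
  have hVW : V = 2 * kappa n * pw n f := volume_prof hn hJ (hbK i)
  have hρW : ρ = (pw n f / pw n semi) ^ (2 / ((n : ℝ) + 1)) := by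
    rw [hρ, hVW, kappa_succ]
    congr 1
    have := pw_semi_pos n
    field_simp
  have hMi : M i = 2 * kappa n * ∫ t in (0:ℝ)..1, t ^ 2 * f t ^ n := by
    simp only [hM, ← hb i]
    exact integral_height_prof hn hJ (hbK i) (φ := fun t => t ^ 2) (continuous_pow 2) fun t => neg_sq t
  have hψ1 : ContDiff ℝ 1 ψ := hψ.of_le (by norm_num)
  have hdodd : ∀ t, deriv ψ (-t) = deriv ψ t := fun t => by
    have e : (fun t => ψ (-t)) = fun t => -ψ t := funext hodd
    have h := deriv_comp_neg (f := ψ) (x := t)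
    rw [e, deriv.fun_neg] at h
    linarith
  have hQ : 2 * kappa n * testQ n ψ f ≤ ((n : ℝ) + 1) * D i := by
    have hd : Continuous (deriv ψ) := hψ1.continuous_deriv (by simp)
    have hc := hψ1.continuous
    have h := le_integral_dg_sq hCtr (hu1 i) (huK i) hψ
    rw [← hb i] at h
    rw [integral_height_prof hn hJ (hbK i)
      (φ := fun t => 2 * deriv ψ t - ((n : ℝ) + 1) * ψ t ^ 2 - 2 * t * ψ t * deriv ψ t)
      (by fun_prop) fun t => by rw [hdodd, hodd]; ring] at h
    simpa only [hD, testQ, hb i] using h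
  have he : (((n : ℝ) + 3) * M i / (V * ρ) - 1) / 2 = excess n f := by
    rw [excess, ← hρW, hMi, hVW]
    field_simp
  simp only [hS, he]
  have hQ' : testQ n ψ f / pw n f ≤ ((n : ℝ) + 1) * D i / V := by
    rw [hVW, div_le_div_iff₀ hW (by positivity)]
    nlinarith [mul_le_mul_of_nonneg_right hQ hW.le]
  have := mul_le_mul_of_nonneg_left hQ' hβ
  linarith

/-- Some contact direction whose profile passes every gradient test. -/
theorem exists_contact_grad (hn : n ≠ 0) {K : Set (E n)} (hJ : InJohn K) :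
    ∃ b : OrthonormalBasis (Fin (n + 1)) ℝ (E n), (∀ x ∈ K, |⟪b 0, x⟫| ≤ 1) ∧
      Adm (prof K b) ∧ 0 < pw n (prof K b) ∧ GradOK n (prof K b) := by
  obtain ⟨b, hb, h⟩ := exists_contact_profile hn le_rfl zero_le_one hJ (fun _ => 0)
    fun m c b _ _ _ _ => by simp
  have hW := pw_pos hn hJ hb rfl
  refine ⟨b, hb, prof_adm hn hJ b, hW, fun ψ hψ hodd => ?_⟩
  have := h ψ hψ hodd
  rw [zero_mul, add_zero, one_mul, zero_add, sub_nonneg, div_le_one hW] at this
  exact this

/-- The slice functional through the profile, in the form of the contact bound. -/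
theorem slice_of_profile (hn : 2 ≤ n) {k : ℝ} {K : Set (E n)} (hJ : InJohn K)
    {b : OrthonormalBasis (Fin (n + 1)) ℝ (E n)} (hb : ∀ x ∈ K, |⟪b 0, x⟫| ≤ 1)
    (h : k * pw n (prof K b) ^ (n - 1) ≤ 2 * pw (n - 1) (prof K b) ^ n) :
    k * volume.real K ^ (n - 1) ≤ (∫ t, slArea K b t ^ (((n : ℝ) - 1) / n)) ^ n := by
  have hn0 : n ≠ 0 := by omega
  rw [volume_prof hn0 hJ hb, integral_rpow_prof hn hJ hb]
  have hk := kappa_pos n
  have hκ : (kappa n ^ (((n : ℝ) - 1) / n)) ^ n = kappa n ^ (n - 1) := by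
    rw [← Real.rpow_natCast, ← Real.rpow_mul hk.le, div_mul_cancel₀ _ (Nat.cast_ne_zero.2 hn0),
      ← Nat.cast_one, ← Nat.cast_sub (by omega), Real.rpow_natCast]
  rw [mul_pow, mul_pow, mul_pow, mul_pow, hκ]
  have e2 : (2 : ℝ) ^ (n - 1) * 2 = 2 ^ n := by rw [← pow_succ, Nat.sub_add_cancel (by omega)]
  calc k * (2 ^ (n - 1) * kappa n ^ (n - 1) * pw n (prof K b) ^ (n - 1))
      = 2 ^ (n - 1) * kappa n ^ (n - 1) * (k * pw n (prof K b) ^ (n - 1)) := by ring
    _ ≤ 2 ^ (n - 1) * kappa n ^ (n - 1) * (2 * pw (n - 1) (prof K b) ^ n) :=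
        mul_le_mul_of_nonneg_left h (by positivity)
    _ = _ := by rw [← e2]; ring

end

end Vale.Agent.P237.Gen.Contact
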